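import Vale.Agent.P042.H540.Lev1
import Vale.Agent.P042.H945.PLawA

/-!
# P042, power regime: the field `lev1` of `PLaw` in the form of 945's `plaw_of_cell`
-/

set_option autoImplicit false
set_option linter.unusedSectionVars false

namespace Vale.Agent.P042.H540

open Finset
open Vale.Agent.P042.H599 (cm Law)
open Vale.Agent.P042.H438 (Rs uw)
open Vale.Agent.P042.H945 (CellIn lamR)
open Vale.Agent.P042.H92 (Prm)

variable {ι : Type*} [Fintype ι] [DecidableEq ι] {V : ι → Type*} [∀ i, Fintype (V i)]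
  [∀ i, DecidableEq (V i)] {q : ι → ℕ} {r : ∀ i, ℕ → V i}
  {S : Finset ι} {W : Finset ℕ} {g ga b be : ℝ} {mu : ℕ → ℝ} {N : ℕ} {DM Dm : ℝ}
  {D0 w0 u v : ℕ}

/-- **`hlev` of `plaw_of_cell`** -/
theorem hlev_of {Q : Prm} (es : ι → ℝ) {DmC : ℝ}
    (H : CellIn S q r W g ga b be mu N DM DmC D0 w0 u v) {P κ : ℝ} (hp : Q.p = Real.log P)
    (hcap : ∀ n, N * mu n ≤ 2 * Real.exp (32 * Dm)) (hC1 : 1 ≤ Q.C1)
    (hb0 : 0 ≤ b) (hY : ∀ i ∈ S, (q i : ℝ) ≤ P ^ Q.C1) (hDm1 : 1 ≤ Dm) (hDm : Dm ≤ κ * P)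
    (hM : P / 2 ≤ Real.log N) (hP : 8 ≤ Real.log P) (hP2 : 16 * Q.C1 * Real.log P ≤ P)
    (hγ : Q.C1 * b + 1056 * Q.C1 * κ ≤ Q.γ) :
    ∀ x : ℝ, Q.p / 2 ≤ x → ∑ i ∈ S with x ≤ es i ∧ es i ≤ x + 1,
      H565.rho (lamR S q r mu N) (uw q) i ≤ Real.exp ((1 + Q.γ) * Q.p) := by
  intro x _
  rw [hp]
  refine lev1_core H.rs (S.filter fun i => x ≤ es i ∧ es i ≤ x + 1) (fun i _ a => rfl) (mu := mu)
    (M := N) (fun i hi a => ?_) H.law hcap hC1 hb0 (fun i hi => hY i (mem_filter.1 hi).1)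
    (fun i hi a => H.sup _ (H.inS i (mem_filter.1 hi).1) a) hDm1 hDm hM hP hP2 hγ
  unfold lamR
  rw [if_pos (mem_filter.1 hi).1]

end Vale.Agent.P042.H540
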