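import Mathlib

/-! Rotations of replicas: the algebra of set functions. -/

set_option linter.unusedSectionVars false
set_option linter.unusedDecidableInType false

namespace Vale.Agent.P042.H540

open Finset

variable {ι : Type*} [Fintype ι] [DecidableEq ι]

/-- The root of unity `exp (2 π i / (d+1))`. -/
noncomputable def zet (d : ℕ) : ℂ := Complex.exp (2 * Real.pi * Complex.I / ((d + 1 : ℕ) : ℂ))

/-- The weight of a label. -/
noncomputable def om (d : ℕ) (r : Fin (d + 1)) : ℂ := zet d ^ (r : ℕ)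

lemma zet_prim (d : ℕ) : IsPrimitiveRoot (zet d) (d + 1) :=
  Complex.isPrimitiveRoot_exp (d + 1) (Nat.succ_ne_zero d)

lemma om_zero (d : ℕ) : om d 0 = 1 := by simp [om]

lemma om_succ (d : ℕ) (r : Fin (d + 1)) : om d (r + 1) = zet d * om d r := by
  unfold om
  rw [Fin.val_add_eq_ite]
  have hone : zet d ^ (d + 1) = 1 := (zet_prim d).pow_eq_one
  have h1 : ((1 : Fin (d + 1)) : ℕ) = 1 % (d + 1) := by
    rcases Nat.eq_zero_or_pos d with h | h
    · subst h; rfl
    · rw [Nat.mod_eq_of_lt (by omega)]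
      exact Fin.val_one' (d + 1) ▸ (Nat.mod_eq_of_lt (by omega))
  have h2 : zet d ^ ((r : ℕ) + ((1 : Fin (d + 1)) : ℕ)) = zet d * zet d ^ (r : ℕ) := by
    rw [h1, pow_add]
    have : zet d ^ (1 % (d + 1)) = zet d := by
      rcases Nat.eq_zero_or_pos d with h | h
      · subst h
        simpa using hone.symm
      · rw [Nat.mod_eq_of_lt (by omega), pow_one]
    rw [this, mul_comm]
  split_ifs with h
  · rw [← h2]
    have : zet d ^ ((r : ℕ) + ((1 : Fin (d + 1)) : ℕ))
        = zet d ^ ((r : ℕ) + ((1 : Fin (d + 1)) : ℕ) - (d + 1)) * zet d ^ (d + 1) := by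
      rw [← pow_add]
      congr 1
      omega
    rw [this, hone, mul_one]
  · exact h2

lemma norm_om (d : ℕ) (r : Fin (d + 1)) : ‖om d r‖ = 1 := by
  unfold om
  rw [norm_pow, (zet_prim d).norm'_eq_one (Nat.succ_ne_zero d), one_pow]

/-- Label functions supported on `e`. -/
def Rho (d : ℕ) (e : Finset ι) : Finset (ι → Fin (d + 1)) :=
  Fintype.piFinset (fun j => if j ∈ e then univ else {0})

lemma mem_Rho {d : ℕ} {e : Finset ι} {ρ : ι → Fin (d + 1)} :
    ρ ∈ Rho d e ↔ ∀ j, j ∉ e → ρ j = 0 := by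
  unfold Rho
  rw [Fintype.mem_piFinset]
  constructor
  · intro h j hj
    have := h j
    rw [if_neg hj] at this
    simpa using this
  · intro h j
    by_cases hj : j ∈ e
    · rw [if_pos hj]; exact mem_univ _
    · rw [if_neg hj, h j hj]; exact mem_singleton_self _

lemma card_Rho (d : ℕ) (e : Finset ι) : (Rho d e).card = (d + 1) ^ e.card := by
  unfold Rho
  rw [Fintype.card_piFinset]
  have : ∀ j : ι, (if j ∈ e then (univ : Finset (Fin (d + 1))) else {0}).card
      = if j ∈ e then d + 1 else 1 := by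
    intro j
    split_ifs <;> simp
  simp_rw [this]
  rw [Finset.prod_ite]
  simp

/-- The weight of a label function. -/
noncomputable def wt (d : ℕ) (e : Finset ι) (ρ : ι → Fin (d + 1)) : ℂ := ∏ j ∈ e, om d (ρ j)

/-- Shift of the labels on `D`. -/
def sh {d : ℕ} (D : Finset ι) (ρ : ι → Fin (d + 1)) : ι → Fin (d + 1) :=
  fun j => if j ∈ D then ρ j + 1 else ρ j

lemma sh_inj {d : ℕ} (D : Finset ι) : Function.Injective (sh (d := d) D) := by
  intro ρ ρ' h
  funext j
  have := congrFun h j
  unfold sh at this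
  split_ifs at this with hj
  · exact add_right_cancel this
  · exact this

lemma sh_mem_Rho {d : ℕ} {D e : Finset ι} (hD : D ⊆ e) {ρ : ι → Fin (d + 1)}
    (h : ρ ∈ Rho d e) : sh D ρ ∈ Rho d e := by
  rw [mem_Rho] at h ⊢
  intro j hj
  unfold sh
  rw [if_neg (fun hc => hj (hD hc)), h j hj]

lemma wt_sh {d : ℕ} {D e : Finset ι} (hD : D ⊆ e) (ρ : ι → Fin (d + 1)) :
    wt d e (sh D ρ) = zet d ^ D.card * wt d e ρ := by
  unfold wt
  have h1 : ∀ j ∈ e, om d (sh D ρ j) = (if j ∈ D then zet d else 1) * om d (ρ j) := by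
    intro j _
    unfold sh
    split_ifs with h
    · exact om_succ d _
    · rw [one_mul]
  rw [prod_congr rfl h1, prod_mul_distrib]
  congr 1
  rw [Finset.prod_ite]
  have : (e.filter fun j => j ∈ D) = D := by
    ext j; simp only [mem_filter]; exact ⟨fun h => h.2, fun h => ⟨hD h, h⟩⟩
  rw [this]
  simp

lemma sum_zero_of_shift {α : Type*} (S : Finset α) (σ : α → α) (hσ : ∀ x ∈ S, σ x ∈ S)
    (hinj : Function.Injective σ) (f : α → ℂ) (c : ℂ) (hc : c ≠ 1)
    (hf : ∀ x ∈ S, f (σ x) = c * f x) : ∑ x ∈ S, f x = 0 := by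
  classical
  have h1 : ∑ x ∈ S, f (σ x) = ∑ x ∈ S, f x := by
    have himg : S.image σ = S := by
      apply Finset.eq_of_subset_of_card_le
      · intro y hy
        obtain ⟨x, hx, rfl⟩ := mem_image.mp hy
        exact hσ x hx
      · rw [card_image_of_injective _ hinj]
    conv_rhs => rw [← himg]
    rw [sum_image (fun x _ y _ h => hinj h)]
  rw [sum_congr rfl hf, ← mul_sum] at h1
  have h2 : (c - 1) * ∑ x ∈ S, f x = 0 := by linear_combination h1
  rcases mul_eq_zero.mp h2 with h | h
  · exact absurd (sub_eq_zero.mp h) hc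
  · exact h

lemma filter_sh {d : ℕ} (D : Finset ι) (ρ : ι → Fin (d + 1)) (r : Fin (d + 1)) :
    (D.filter fun j => sh D ρ j = r + 1) = D.filter fun j => ρ j = r := by
  ext j
  rw [mem_filter, mem_filter]
  constructor
  · rintro ⟨h1, h2⟩
    unfold sh at h2
    rw [if_pos h1] at h2
    exact ⟨h1, add_right_cancel h2⟩
  · rintro ⟨h1, h2⟩
    exact ⟨h1, by unfold sh; rw [if_pos h1, h2]⟩

lemma prod_sh {d : ℕ} (D : Finset ι) (ρ : ι → Fin (d + 1)) (a : Finset ι → ℂ) :
    ∏ r, a (D.filter fun j => sh D ρ j = r) = ∏ r, a (D.filter fun j => ρ j = r) := by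
  rw [← Equiv.prod_comp (Equiv.addRight (1 : Fin (d + 1)))
    (fun r => a (D.filter fun j => sh D ρ j = r))]
  refine prod_congr rfl fun r _ => ?_
  rw [Equiv.coe_addRight, filter_sh]

/-- The rotated product of equal factors vanishes in orders `1, …, d`. -/
lemma rot_vanish {d : ℕ} (D : Finset ι) (h0 : 0 < D.card) (hd : D.card ≤ d)
    (a : Finset ι → ℂ) :
    ∑ ρ ∈ Rho d D, wt d D ρ * ∏ r, a (D.filter fun j => ρ j = r) = 0 := by
  refine sum_zero_of_shift _ (sh D) (fun ρ hρ => sh_mem_Rho subset_rfl hρ) (sh_inj D) _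
    (zet d ^ D.card) ((zet_prim d).pow_ne_one_of_pos_of_lt h0.ne' (by omega)) ?_
  intro ρ _
  rw [wt_sh subset_rfl, prod_sh]
  ring

lemma wt_sdiff {d : ℕ} {e C : Finset ι} (hC : C ⊆ e) {ρ : ι → Fin (d + 1)}
    (hρ : ρ ∈ Rho d (e \ C)) : wt d e ρ = wt d (e \ C) ρ := by
  unfold wt
  rw [← prod_sdiff hC]
  have : ∏ j ∈ C, om d (ρ j) = 1 := by
    refine prod_eq_one fun j hj => ?_
    rw [mem_Rho.mp hρ j (by simp [hj]), om_zero]
  rw [this, mul_one]

/-- Convolution in the replica `0`: if `b = k * a` then the rotated product of `b` (replica `0`)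
and `a` (other replicas) is `k`, up to order `d`. -/
theorem rot_conv {d : ℕ} (e : Finset ι) (he : e.card ≤ d) (a b k : Finset ι → ℂ)
    (ha : a ∅ = 1) (hb : ∀ E ⊆ e, b E = ∑ C ∈ E.powerset, k C * a (E \ C)) :
    ∑ ρ ∈ Rho d e, wt d e ρ * ∏ r, (if r = 0 then b (e.filter fun j => ρ j = r)
      else a (e.filter fun j => ρ j = r)) = k e := by
  have h1 : ∀ ρ ∈ Rho d e, wt d e ρ * ∏ r, (if r = 0 then b (e.filter fun j => ρ j = r)
      else a (e.filter fun j => ρ j = r))
      = ∑ C ∈ (e.filter fun j => ρ j = 0).powerset, k C *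
        (wt d (e \ C) ρ * ∏ r, a ((e \ C).filter fun j => ρ j = r)) := by
    intro ρ hρ
    rw [Fin.prod_univ_succ]
    rw [if_pos rfl, hb _ (filter_subset _ _), sum_mul, mul_sum]
    refine sum_congr rfl fun C hC => ?_
    have hC' := mem_powerset.mp hC
    have hCe : C ⊆ e := hC'.trans (filter_subset _ _)
    have hρC : ρ ∈ Rho d (e \ C) := by
      rw [mem_Rho] at hρ ⊢
      intro j hj
      by_cases hje : j ∈ e
      · have : j ∈ C := by
          by_contra hc
          exact hj (mem_sdiff.mpr ⟨hje, hc⟩)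
        exact (mem_filter.mp (hC' this)).2
      · exact hρ j hje
    rw [wt_sdiff hCe hρC, Fin.prod_univ_succ]
    have e0 : (e.filter fun j => ρ j = 0) \ C = (e \ C).filter fun j => ρ j = 0 := by
      ext j; simp only [mem_sdiff, mem_filter]; tauto
    have e1 : ∀ r : Fin d, (if r.succ = 0 then b (e.filter fun j => ρ j = r.succ)
        else a (e.filter fun j => ρ j = r.succ)) = a ((e \ C).filter fun j => ρ j = r.succ) := by
      intro r
      rw [if_neg (Fin.succ_ne_zero r)]
      congr 1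
      ext j
      simp only [mem_sdiff, mem_filter]
      constructor
      · rintro ⟨h2, h3⟩
        refine ⟨⟨h2, fun hc => ?_⟩, h3⟩
        have := (mem_filter.mp (hC' hc)).2
        rw [this] at h3
        exact Fin.succ_ne_zero r h3.symm
      · rintro ⟨⟨h2, _⟩, h3⟩
        exact ⟨h2, h3⟩
    rw [e0, prod_congr rfl fun r _ => e1 r]
    ring
  rw [sum_congr rfl h1]
  rw [Finset.sum_comm' (s' := fun C => Rho d (e \ C)) (t' := e.powerset)]
  · have h2 : ∀ C ∈ e.powerset, ∑ ρ ∈ Rho d (e \ C), k C *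
        (wt d (e \ C) ρ * ∏ r, a ((e \ C).filter fun j => ρ j = r))
        = if C = e then k e else 0 := by
      intro C hC
      have hCe := mem_powerset.mp hC
      rw [← mul_sum]
      by_cases h : C = e
      · subst h
        rw [if_pos rfl]
        have hR : Rho d (C \ C) = {fun _ => 0} := by
          ext ρ
          rw [mem_Rho, mem_singleton]
          constructor
          · intro h; funext j; exact h j (by simp)
          · intro h j _; rw [h]
        rw [hR, sum_singleton]
        simp [wt, ha]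
      · rw [if_neg h, rot_vanish (e \ C) _ _ a, mul_zero]
        · rw [card_pos]
          by_contra hc
          rw [not_nonempty_iff_eq_empty, sdiff_eq_empty_iff_subset] at hc
          exact h (subset_antisymm hCe hc)
        · exact (card_le_card sdiff_subset).trans he
    rw [sum_congr rfl h2, sum_ite_eq' e.powerset e (fun _ => k e), if_pos (by simp)]
  · intro ρ C
    rw [mem_Rho, mem_powerset, mem_Rho, mem_powerset]
    constructor
    · rintro ⟨h2, h3⟩
      refine ⟨fun j hj => ?_, h3.trans (filter_subset _ _)⟩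
      by_cases hje : j ∈ e
      · have : j ∈ C := by
          by_contra hc
          exact hj (mem_sdiff.mpr ⟨hje, hc⟩)
        exact (mem_filter.mp (h3 this)).2
      · exact h2 j hje
    · rintro ⟨h2, h3⟩
      refine ⟨fun j hj => h2 j fun hc => hj (mem_sdiff.mp hc).1, fun j hj => ?_⟩
      exact mem_filter.mpr ⟨h3 hj, h2 j fun hc => (mem_sdiff.mp hc).2 hj⟩

end Vale.Agent.P042.H540
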