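import Vale.Agent.P042.H540.Rep

/-! Hoeffding parts of the relative densities, and pairing with degenerate kernels. -/

set_option linter.unusedSectionVars false
set_option linter.unusedDecidableInType false

namespace Vale.Agent.P042.H540

open Finset Vale.Agent.P042.H779

variable {ι : Type*} [Fintype ι] [DecidableEq ι] {V : ι → Type*} [∀ i, Fintype (V i)]
  [∀ i, DecidableEq (V i)]

/-- Hoeffding part `h_B` of the density. -/
noncomputable def hf (μ : (∀ i, V i) → ℝ) (B : Finset ι) (x : ∀ i, V i) : ℝ :=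
  ∑ C ∈ B.powerset, (-1) ^ (B.card - C.card) * gd μ C x

lemma gd_loc (μ : (∀ i, V i) → ℝ) (B : Finset ι) : Loc B (gd μ B) := by
  intro x y h
  unfold gd
  rw [marg_congr B h]
  congr 1
  exact prod_congr rfl fun j hj => by rw [h j hj]

lemma Loc.mono {A B : Finset ι} (h : A ⊆ B) {F : (∀ i, V i) → ℝ} (hF : Loc A F) : Loc B F :=
  fun x y hxy => hF x y fun j hj => hxy j (h hj)

lemma Loc.update {A : Finset ι} {F : (∀ i, V i) → ℝ} (hF : Loc A F) {i : ι} (hi : i ∉ A)
    (x : ∀ i, V i) (a : V i) : F (Function.update x i a) = F x := by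
  refine hF _ _ fun j hj => ?_
  have : j ≠ i := fun h => hi (h ▸ hj)
  simp [this]

lemma hf_loc (μ : (∀ i, V i) → ℝ) (B : Finset ι) : Loc B (hf μ B) := by
  intro x y h
  unfold hf
  refine sum_congr rfl fun C hC => ?_
  rw [Loc.mono (mem_powerset.mp hC) (gd_loc μ C) x y h]

/-- Möbius inversion. -/
lemma sum_hf (μ : (∀ i, V i) → ℝ) (B : Finset ι) (x : ∀ i, V i) :
    ∑ C ∈ B.powerset, hf μ C x = gd μ B x := by
  unfold hf
  -- swap
  have h1 : ∑ C ∈ B.powerset, ∑ D ∈ C.powerset, (-1 : ℝ) ^ (C.card - D.card) * gd μ D x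
      = ∑ D ∈ B.powerset, gd μ D x * ∑ E ∈ (B \ D).powerset, (-1 : ℝ) ^ E.card := by
    rw [Finset.sum_sigma', ]
    simp_rw [Finset.mul_sum]
    rw [Finset.sum_sigma']
    refine Finset.sum_bij' (fun p _ => (⟨p.2, p.1 \ p.2⟩ : Σ _ : Finset ι, Finset ι))
      (fun p _ => (⟨p.1 ∪ p.2, p.1⟩ : Σ _ : Finset ι, Finset ι)) ?_ ?_ ?_ ?_ ?_
    · rintro ⟨C, D⟩ h
      simp only [mem_sigma, mem_powerset] at h ⊢
      exact ⟨h.2.trans h.1, sdiff_subset_sdiff h.1 le_rfl⟩
    · rintro ⟨D, E⟩ h
      simp only [mem_sigma, mem_powerset] at h ⊢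
      exact ⟨union_subset h.1 (h.2.trans sdiff_subset), subset_union_left⟩
    · rintro ⟨C, D⟩ h
      simp only [mem_sigma, mem_powerset] at h
      simp only [Sigma.mk.injEq, heq_eq_eq, and_true]
      exact union_sdiff_of_subset h.2
    · rintro ⟨D, E⟩ h
      simp only [mem_sigma, mem_powerset] at h
      simp only [Sigma.mk.injEq, heq_eq_eq, true_and]
      rw [union_sdiff_left]
      exact sdiff_eq_self_of_disjoint (disjoint_of_subset_left h.2 sdiff_disjoint)
    · rintro ⟨C, D⟩ h
      simp only [mem_sigma, mem_powerset] at h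
      simp only
      rw [card_sdiff_of_subset h.2]
      ring
  rw [h1]
  have h2 : ∀ D ∈ B.powerset, gd μ D x * ∑ E ∈ (B \ D).powerset, (-1 : ℝ) ^ E.card
      = if D = B then gd μ B x else 0 := by
    intro D hD
    have h3 : ∑ E ∈ (B \ D).powerset, (-1 : ℝ) ^ E.card = if B \ D = ∅ then 1 else 0 := by
      have := Finset.sum_powerset_neg_one_pow_card (x := B \ D)
      have h4 : ((∑ E ∈ (B \ D).powerset, (-1 : ℤ) ^ E.card : ℤ) : ℝ)
          = ((if B \ D = ∅ then 1 else 0 : ℤ) : ℝ) := by rw [this]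
      push_cast at h4
      simpa using h4
    rw [h3]
    by_cases hDB : D = B
    · subst hDB; simp
    · have : B \ D ≠ ∅ := by
        intro hc
        exact hDB (subset_antisymm (mem_powerset.mp hD) (sdiff_eq_empty_iff_subset.mp hc))
      simp [hDB, this]
  rw [Finset.sum_congr rfl h2, Finset.sum_ite_eq' B.powerset B (fun _ => gd μ B x)]
  simp

lemma hf_empty {μ : (∀ i, V i) → ℝ} (h : IsProb μ) (x : ∀ i, V i) : hf μ ∅ x = 1 := by
  simp [hf, gd_empty h]

/-- `ψ` has zero average over coordinate `j`. -/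
def Deg (μ : (∀ i, V i) → ℝ) (j : ι) (ψ : (∀ i, V i) → ℝ) : Prop :=
  ∀ x, ∑ a, m1 μ j a * ψ (Function.update x j a) = 0

lemma deg_kill {μ : (∀ i, V i) → ℝ} (h : IsProb μ) {j : ι} {ψ H : (∀ i, V i) → ℝ}
    (hψ : Deg μ j ψ) (hH : ∀ x a, H (Function.update x j a) = H x) :
    ∑ x, pw μ x * (ψ x * H x) = 0 := by
  rw [pw_avg h j]
  refine sum_eq_zero fun x _ => ?_
  have : ∑ a, m1 μ j a * (ψ (Function.update x j a) * H (Function.update x j a)) = 0 := by
    have h1 : ∀ a, m1 μ j a * (ψ (Function.update x j a) * H (Function.update x j a))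
        = H x * (m1 μ j a * ψ (Function.update x j a)) := by
      intro a; rw [hH]; ring
    rw [sum_congr rfl fun a _ => h1 a, ← mul_sum, hψ x, mul_zero]
  rw [this, mul_zero]

/-- Against a kernel which is degenerate in every coordinate of `e`, a product of sums of local
functions over the parts of a partition of `e` may be replaced by the product of the top
parts. -/
lemma deg_top {μ : (∀ i, V i) → ℝ} (h : IsProb μ) {N : ℕ} (e : Finset ι) (ρ : ι → Fin N)
    (ψ : (∀ i, V i) → ℝ) (hψ : ∀ j ∈ e, Deg μ j ψ)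
    (hh : Fin N → Finset ι → (∀ i, V i) → ℝ) (hloc : ∀ r C, C ⊆ e → Loc C (hh r C)) :
    ∑ x, pw μ x * (ψ x * ∏ r, ∑ C ∈ (e.filter fun j => ρ j = r).powerset, hh r C x)
      = ∑ x, pw μ x * (ψ x * ∏ r, hh r (e.filter fun j => ρ j = r) x) := by
  have h1 : ∀ x, ∏ r, ∑ C ∈ (e.filter fun j => ρ j = r).powerset, hh r C x
      = ∑ C ∈ Fintype.piFinset (fun r : Fin N => (e.filter fun j => ρ j = r).powerset),
        ∏ r, hh r (C r) x := by
    intro x
    exact Finset.prod_univ_sum _ _
  simp_rw [h1, mul_sum]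
  rw [Finset.sum_comm]
  rw [Finset.sum_eq_single (fun r : Fin N => (e.filter fun j => ρ j = r))]
  · intro C hC hne
    rw [Fintype.mem_piFinset] at hC
    have : ∃ r, C r ≠ e.filter fun j => ρ j = r := by
      by_contra hcon
      push Not at hcon
      exact hne (funext hcon)
    obtain ⟨r, hr⟩ := this
    have hsub := mem_powerset.mp (hC r)
    obtain ⟨j, hj, hjC⟩ : ∃ j ∈ e.filter (fun j => ρ j = r), j ∉ C r := by
      by_contra hcon
      push Not at hcon
      exact hr (subset_antisymm hsub hcon)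
    have hje : j ∈ e := (mem_filter.mp hj).1
    refine deg_kill h (hψ j hje) ?_
    intro x a
    refine prod_congr rfl fun s _ => ?_
    have hCs := mem_powerset.mp (hC s)
    refine Loc.update (hloc s (C s) (hCs.trans (filter_subset _ _))) ?_ x a
    intro hjs
    have h2 := (mem_filter.mp (hCs hjs)).2
    have h3 := (mem_filter.mp hj).2
    have : s = r := h2.symm.trans h3
    subst this
    exact hjC hjs
  · intro hcon
    exfalso
    apply hcon
    rw [Fintype.mem_piFinset]
    intro r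
    exact mem_powerset.mpr le_rfl

end Vale.Agent.P042.H540
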