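import Vale.Agent.P042.H540.Hf

/-! Degeneracy of the Hoeffding parts and of the row cumulants. -/

set_option linter.unusedSectionVars false
set_option linter.unusedDecidableInType false

namespace Vale.Agent.P042.H540

open Finset Vale.Agent.P042.H779

variable {ι : Type*} [Fintype ι] [DecidableEq ι] {V : ι → Type*} [∀ i, Fintype (V i)]
  [∀ i, DecidableEq (V i)]

lemma hf_insert (μ : (∀ i, V i) → ℝ) {j : ι} {B : Finset ι} (hj : j ∉ B) (x : ∀ i, V i) :
    hf μ (insert j B) x = ∑ C ∈ B.powerset, (-1) ^ (B.card - C.card) *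
      (gd μ (insert j C) x - gd μ C x) := by
  unfold hf
  rw [sum_powerset_insert hj, ← sum_add_distrib]
  refine sum_congr rfl fun C hC => ?_
  have hCB := mem_powerset.mp hC
  have hc := card_le_card hCB
  have hjC : j ∉ C := fun h => hj (hCB h)
  rw [card_insert_of_notMem hj, card_insert_of_notMem hjC]
  have h1 : B.card + 1 - C.card = (B.card - C.card) + 1 := by omega
  have h2 : B.card + 1 - (C.card + 1) = B.card - C.card := by omega
  rw [h1, h2, pow_succ]
  ring

lemma hf_deg {μ : (∀ i, V i) → ℝ} (h : IsProb μ) {j : ι} {B : Finset ι} (hj : j ∈ B) :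
    Deg μ j (hf μ B) := by
  intro x
  obtain ⟨B', hB', rfl⟩ : ∃ B', j ∉ B' ∧ B = insert j B' :=
    ⟨B.erase j, notMem_erase j B, (insert_erase hj).symm⟩
  simp_rw [hf_insert μ hB', mul_sum]
  rw [sum_comm]
  refine sum_eq_zero fun C hC => ?_
  have hjC : j ∉ C := fun hc => hB' (mem_powerset.mp hC hc)
  have h1 : ∀ a, m1 μ j a * ((-1) ^ (B'.card - C.card) *
      (gd μ (insert j C) (Function.update x j a) - gd μ C (Function.update x j a)))
      = (-1) ^ (B'.card - C.card) * (m1 μ j a * gd μ (insert j C) (Function.update x j a))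
        - (-1) ^ (B'.card - C.card) * gd μ C x * m1 μ j a := by
    intro a
    rw [gd_update C hjC]
    ring
  rw [sum_congr rfl fun a _ => h1 a, sum_sub_distrib, ← mul_sum, gd_avg h C hjC, ← mul_sum,
    m1_sum h]
  ring

/-- Row cumulants: `h_{i ∪ D} = ∑_{C ⊆ D} κ_{i ∪ C} h_{D \ C}`; `k C` stands for `κ_{i ∪ C}`. -/
def Row (μ : (∀ i, V i) → ℝ) (i : ι) (k : Finset ι → (∀ i, V i) → ℝ) : Prop :=
  ∀ D, i ∉ D → ∀ x, hf μ (insert i D) x = ∑ C ∈ D.powerset, k C x * hf μ (D \ C) x

lemma Row.eq {μ : (∀ i, V i) → ℝ} (h : IsProb μ) {i : ι} {k : Finset ι → (∀ i, V i) → ℝ}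
    (hk : Row μ i k) {D : Finset ι} (hD : i ∉ D) (x : ∀ i, V i) :
    k D x = hf μ (insert i D) x - ∑ C ∈ D.powerset.erase D, k C x * hf μ (D \ C) x := by
  rw [hk D hD x, ← add_sum_erase D.powerset _ (mem_powerset_self D), sdiff_self]
  rw [show (⊥ : Finset ι) = ∅ from rfl, hf_empty h]
  ring

lemma Row.loc {μ : (∀ i, V i) → ℝ} (h : IsProb μ) {i : ι} {k : Finset ι → (∀ i, V i) → ℝ}
    (hk : Row μ i k) (D : Finset ι) (hD : i ∉ D) : Loc (insert i D) (k D) := by
  induction D using Finset.strongInduction with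
  | H D ih =>
    intro x y hxy
    rw [hk.eq h hD x, hk.eq h hD y, hf_loc μ (insert i D) x y hxy]
    congr 1
    refine sum_congr rfl fun C hC => ?_
    obtain ⟨hne, hC'⟩ := mem_erase.mp hC
    have hCD := mem_powerset.mp hC'
    have hiC : i ∉ C := fun hc => hD (hCD hc)
    rw [ih C (hCD.ssubset_of_ne hne) hiC x y
      (fun j hj => hxy j (insert_subset_insert i hCD hj)),
      hf_loc μ (D \ C) x y (fun j hj => hxy j (mem_insert_of_mem (sdiff_subset hj)))]

lemma Row.deg {μ : (∀ i, V i) → ℝ} (h : IsProb μ) {i : ι} {k : Finset ι → (∀ i, V i) → ℝ}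
    (hk : Row μ i k) (D : Finset ι) (hD : i ∉ D) (j : ι) (hj : j ∈ insert i D) :
    Deg μ j (k D) := by
  induction D using Finset.strongInduction with
  | H D ih =>
    intro x
    have h0 := hf_deg h hj x
    simp_rw [hk.eq h hD, mul_sub]
    rw [sum_sub_distrib, h0, zero_sub, neg_eq_zero]
    simp_rw [mul_sum]
    rw [sum_comm]
    refine sum_eq_zero fun C hC => ?_
    obtain ⟨hne, hC'⟩ := mem_erase.mp hC
    have hCD := mem_powerset.mp hC'
    have hiC : i ∉ C := fun hc => hD (hCD hc)
    by_cases hjC : j ∈ insert i C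
    · have hjD : j ∉ D \ C := by
        intro hc
        rcases mem_insert.mp hjC with rfl | hc2
        · exact hD (sdiff_subset hc)
        · exact (mem_sdiff.mp hc).2 hc2
      have h1 : ∀ a, m1 μ j a * (k C (Function.update x j a) * hf μ (D \ C)
          (Function.update x j a)) = hf μ (D \ C) x * (m1 μ j a * k C (Function.update x j a)) := by
        intro a
        rw [Loc.update (hf_loc μ (D \ C)) hjD x a]
        ring
      rw [sum_congr rfl fun a _ => h1 a, ← mul_sum, ih C (hCD.ssubset_of_ne hne) hiC hjC x,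
        mul_zero]
    · have hjD : j ∈ D \ C := by
        rcases mem_insert.mp hj with rfl | hc2
        · exact absurd (mem_insert_self _ _) hjC
        · exact mem_sdiff.mpr ⟨hc2, fun hc => hjC (mem_insert_of_mem hc)⟩
      have h1 : ∀ a, m1 μ j a * (k C (Function.update x j a) * hf μ (D \ C)
          (Function.update x j a)) = k C x * (m1 μ j a * hf μ (D \ C) (Function.update x j a)) := by
        intro a
        rw [Loc.update (hk.loc h C hiC) hjC x a]
        ring
      rw [sum_congr rfl fun a _ => h1 a, ← mul_sum, hf_deg h hjD x, mul_zero]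

/-- The row cumulants exist. -/
lemma exists_row {μ : (∀ i, V i) → ℝ} (h : IsProb μ) (i : ι) :
    ∃ k : Finset ι → (∀ i, V i) → ℝ, Row μ i k := by
  classical
  -- strong recursion on finite sets
  let G : (D : Finset ι) → ((C : Finset ι) → C ⊂ D → (∀ i, V i) → ℝ) → (∀ i, V i) → ℝ :=
    fun D rec x => hf μ (insert i D) x -
      ∑ C ∈ (D.powerset.erase D).attach,
        rec C.1 ((mem_powerset.mp (mem_erase.mp C.2).2).ssubset_of_ne (mem_erase.mp C.2).1) x *
          hf μ (D \ C.1) x
  let k : Finset ι → (∀ i, V i) → ℝ := fun D =>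
    Finset.strongInduction (p := fun _ => (∀ i, V i) → ℝ) (fun D rec => G D rec) D
  refine ⟨k, fun D _ x => ?_⟩
  have hkD : k D x = hf μ (insert i D) x - ∑ C ∈ D.powerset.erase D, k C x * hf μ (D \ C) x := by
    show Finset.strongInduction (p := fun _ => (∀ i, V i) → ℝ) (fun D rec => G D rec) D x = _
    rw [Finset.strongInduction_eq]
    show hf μ (insert i D) x - ∑ C ∈ (D.powerset.erase D).attach, _ = _
    congr 1
    rw [← Finset.sum_attach (D.powerset.erase D)]
  rw [← add_sum_erase D.powerset _ (mem_powerset_self D), sdiff_self]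
  rw [show (⊥ : Finset ι) = ∅ from rfl, hf_empty h, hkD]
  ring

end Vale.Agent.P042.H540
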