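import Vale.Agent.P042.H438.DC
import Vale.Agent.P042.H858.EIPush
import Vale.Agent.P042.H565.OwnC

/-!
# P042, power regime: level one energy of the core law against the uniform law

Field `lev1` of 92's `PLaw`: the truncated level one inequality of 599 (`level1`), removal of the
truncation by the density bound of the classes, transport to the product space.
-/

set_option autoImplicit false
set_option linter.unusedSectionVars false

namespace Vale.Agent.P042.H540

open Finset Vale.Agent.P042.H599 Vale.Agent.P042.H779 Vale.Agent.P042.H416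
open Vale.Agent.P042.H858 (pf iv)
open Vale.Agent.P042.H438 (Rs)

/-- the `χ²` distance of the classes mod `p` from the uniform law -/
noncomputable def chi (nu : ℕ → ℝ) (A M p : ℕ) : ℝ :=
  av (fun a => (p * cm nu A M p a - 1) ^ 2) p

theorem chi_nonneg (nu : ℕ → ℝ) (A M p : ℕ) : 0 ≤ chi nu A M p := by
  unfold chi av
  positivity

theorem sq_le_trunc {y B : ℝ} (hy : 0 ≤ y) (hyB : y ≤ B) (hB : 1 ≤ B) :
    (y - 1) ^ 2 ≤ B * ((y - 1) * min (y - 1) 7) := by
  rcases le_total (y - 1) 7 with h | h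
  · rw [min_eq_left h]
    nlinarith [mul_self_nonneg (y - 1)]
  · rw [min_eq_right h]
    nlinarith

theorem chi_le {nu : ℕ → ℝ} {A M p : ℕ} (h0 : ∀ i < M, 0 ≤ nu (A + i)) {B : ℝ} (hB : 1 ≤ B)
    (hs : ∀ a < p, p * cm nu A M p a ≤ B) :
    chi nu A M p ≤ B * av (fun a => (p * cm nu A M p a - 1) * ps nu A M p a) p := by
  unfold chi
  rw [← av_mul_left]
  unfold av
  refine div_le_div_of_nonneg_right (sum_le_sum fun a ha => ?_) (by positivity)
  exact sq_le_trunc (mul_nonneg (by positivity) (cm_nonneg h0 p a)) (hs a (mem_range.1 ha)) hB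

/-- **level one energy, no truncation** -/
theorem chi_sum (W : Finset ℕ) (hW : ∀ p ∈ W, 0 < p)
    (hc : (W : Set ℕ).Pairwise Nat.Coprime) (Y : ℕ) (hY1 : 1 ≤ Y) (hY : ∀ p ∈ W, p ≤ Y)
    (A M m : ℕ) (hM0 : 0 < M) (hm : 1 ≤ m) (D : ℝ) (hD : 0 ≤ D) (nu : ℕ → ℝ)
    (h0 : ∀ i < M, 0 ≤ nu (A + i)) (h1 : ∑ i ∈ range M, nu (A + i) = 1)
    (hb : ∀ i < M, nu (A + i) ≤ Real.exp D / M)
    (hM : 2 * (8 * (W.card : ℝ) * Y) ^ (2 * m) ≤ M) {B : ℝ} (hB : 1 ≤ B)
    (hs : ∀ p ∈ W, ∀ a < p, p * cm nu A M p a ≤ B) :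
    ∑ p ∈ W, chi nu A M p ≤ B * (128 * m * Real.exp (D / m)) := by
  have h := level1 W hW hc Y hY1 hY A M m hM0 hm D hD nu h0 h1 hb hM
  calc ∑ p ∈ W, chi nu A M p
      ≤ ∑ p ∈ W, B * av (fun a => (p * cm nu A M p a - 1) * ps nu A M p a) p :=
        sum_le_sum fun p hp => chi_le h0 hB (hs p hp)
    _ = B * lev nu A M W := by rw [lev, mul_sum]
    _ ≤ _ := mul_le_mul_of_nonneg_left h (by linarith)

section typed

variable {ι : Type*} [Fintype ι] [DecidableEq ι] {V : ι → Type*} [∀ i, Fintype (V i)]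
  [∀ i, DecidableEq (V i)] {q : ι → ℕ} {r : ∀ i, ℕ → V i}

/-- the marginals of the image law are the class masses -/
theorem m1_pf (H : Rs q r) (nu : ℕ → ℝ) (A M : ℕ) (i : ι) (n : ℕ) :
    m1 (pf r nu A M) i (r i n) = cm nu A M (q i) (n % q i) := by
  rw [H858.m1_eq_push, pf, H461.push_push]
  unfold H461.push cm iv
  rw [sum_filter, sum_range]
  refine sum_congr rfl fun j _ => ?_
  have h : (((fun x : ∀ i, V i => x i) ∘ H858.pt r A M) j = r i n) ↔
      (A + (j : ℕ)) % q i = n % q i := by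
    exact H.r_iff i _ _
  by_cases h1 : (A + (j : ℕ)) % q i = n % q i
  · rw [if_pos (h.2 h1), if_pos h1]
  · rw [if_neg fun h2 => h1 (h.1 h2), if_neg h1]

/-- sums over the alphabet are sums over the residues -/
theorem sum_alph (H : Rs q r) (i : ι) (F : V i → ℝ) :
    ∑ a, F a = ∑ n ∈ range (q i), F (r i n) := by
  have hinj : Function.Injective fun n : Fin (q i) => r i n := by
    intro a b hab
    have := (H.r_iff i _ _).1 hab
    exact Fin.ext (Nat.ModEq.eq_of_lt_of_lt this a.2 b.2)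
  have hbij := (Fintype.bijective_iff_injective_and_card fun n : Fin (q i) => r i n).2
    ⟨hinj, by rw [Fintype.card_fin, H.card]⟩
  rw [sum_range]
  exact (Function.Bijective.sum_comp hbij F).symm

/-- 565's `rho` at the marginals of the image law, uniform reference -/
theorem rho_pf (H : Rs q r) {u : ∀ i, V i → ℝ} {i : ι} (hu : ∀ a, u i a = 1 / (q i : ℝ))
    (nu : ℕ → ℝ) (A M : ℕ) {lam : ∀ i, V i → ℝ}
    (hl : ∀ a, lam i a = m1 (pf r nu A M) i a) :
    H565.rho lam u i = chi nu A M (q i) := by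
  unfold H565.rho chi av
  rw [sum_alph H, sum_div]
  refine sum_congr rfl fun n hn => ?_
  rw [hl, hu, m1_pf H, Nat.mod_eq_of_lt (mem_range.1 hn)]
  have := H.pos i
  have h2 : (q i : ℝ) ≠ 0 := by positivity
  field_simp

/-- **the field `lev1`**, exact form -/
theorem rho_sum (H : Rs q r) {u lam : ∀ i, V i → ℝ} (S : Finset ι)
    (hu : ∀ i ∈ S, ∀ a, u i a = 1 / (q i : ℝ)) {nu : ℕ → ℝ} {A M : ℕ}
    (hl : ∀ i ∈ S, ∀ a, lam i a = m1 (pf r nu A M) i a)
    {Y m : ℕ} (hY : ∀ i ∈ S, q i ≤ Y) (hM0 : 0 < M) (hm : 1 ≤ m) {D : ℝ} (hD : 0 ≤ D)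
    (h0 : ∀ i < M, 0 ≤ nu (A + i)) (h1 : ∑ i ∈ range M, nu (A + i) = 1)
    (hb : ∀ i < M, nu (A + i) ≤ Real.exp D / M)
    (hM : 2 * (8 * (S.card : ℝ) * Y) ^ (2 * m) ≤ M) {B : ℝ} (hB : 1 ≤ B)
    (hs : ∀ i ∈ S, ∀ a < q i, q i * cm nu A M (q i) a ≤ B) :
    ∑ i ∈ S, H565.rho lam u i ≤ B * (128 * m * Real.exp (D / m)) := by
  classical
  rcases S.eq_empty_or_nonempty with hS | ⟨i0, hi0⟩
  · subst hS
    rw [sum_empty]
    positivity
  have hqinj : Set.InjOn q S := by
    intro i _ j _ hij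
    by_contra h
    have h2 := H.cop h
    simp only at h2
    rw [hij] at h2
    have h3 := (Nat.coprime_self _).1 h2
    have := H.two j
    omega
  rw [sum_congr rfl fun i hi => rho_pf H (hu i hi) nu A M (hl i hi),
    ← sum_image (f := fun p => chi nu A M p) hqinj]
  refine chi_sum (S.image q) ?_ ?_ Y ?_ ?_ A M m hM0 hm D hD nu h0 h1 hb ?_ hB ?_
  · intro p hp
    obtain ⟨i, _, rfl⟩ := mem_image.1 hp
    exact H.pos i
  · intro a ha b hb hab
    obtain ⟨i, _, rfl⟩ := mem_image.1 (mem_coe.1 ha)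
    obtain ⟨j, _, rfl⟩ := mem_image.1 (mem_coe.1 hb)
    exact H.cop fun h => hab (by rw [h])
  · have := H.two i0
    have := hY i0 hi0
    omega
  · intro p hp
    obtain ⟨i, hi, rfl⟩ := mem_image.1 hp
    exact hY i hi
  · rw [card_image_of_injOn hqinj]
    exact hM
  · intro p hp
    obtain ⟨i, hi, rfl⟩ := mem_image.1 hp
    exact hs i hi

/-- **the field `lev1` of `PLaw` from the fields `law`, `cap`, `sup` of the state** -/
theorem lev1_core (H : Rs q r) {u lam : ∀ i, V i → ℝ} (S : Finset ι)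
    (hu : ∀ i ∈ S, ∀ a, u i a = 1 / (q i : ℝ)) {mu : ℕ → ℝ} {M : ℕ}
    (hl : ∀ i ∈ S, ∀ a, lam i a = m1 (pf r mu 1 M) i a) (hlaw : Law mu 1 M)
    {Dm P C1 b κ γ : ℝ} (hcap : ∀ n, M * mu n ≤ 2 * Real.exp (32 * Dm)) (hC1 : 1 ≤ C1)
    (hb0 : 0 ≤ b) (hY : ∀ i ∈ S, (q i : ℝ) ≤ P ^ C1)
    (hsup : ∀ i ∈ S, ∀ a, q i * cm mu 1 M (q i) a ≤ (q i : ℝ) ^ b)
    (hDm1 : 1 ≤ Dm) (hDm : Dm ≤ κ * P) (hM : P / 2 ≤ Real.log M) (hP : 8 ≤ Real.log P)
    (hP2 : 16 * C1 * Real.log P ≤ P) (hγ : C1 * b + 1056 * C1 * κ ≤ γ) :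
    ∑ i ∈ S, H565.rho lam u i ≤ Real.exp ((1 + γ) * Real.log P) := by
  classical
  have hM0 : 0 < M := hlaw.pos
  have hMR : (0 : ℝ) < M := by exact_mod_cast hM0
  have hL0 : 0 < Real.log P := by linarith
  have hP0 : 0 < P := by
    have : 0 < 16 * C1 * Real.log P := by positivity
    linarith
  have hP1 : 1 ≤ P := by
    have : 16 * 1 * 8 ≤ 16 * C1 * Real.log P := by gcongr
    linarith
  have hP8 : 8 ≤ P := by
    have : 16 * 1 * 8 ≤ 16 * C1 * Real.log P := by gcongr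
    linarith
  obtain ⟨Y, hYd⟩ : ∃ Y : ℕ, Y = ⌊P ^ C1⌋₊ := ⟨_, rfl⟩
  have hPC : (1 : ℝ) ≤ P ^ C1 := Real.one_le_rpow hP1 (by linarith)
  have hYle : (Y : ℝ) ≤ P ^ C1 := by rw [hYd]; exact Nat.floor_le (by linarith)
  have hYq : ∀ i ∈ S, q i ≤ Y := fun i hi => by rw [hYd]; exact Nat.le_floor (hY i hi)
  have hqinj : Set.InjOn q S := by
    intro i _ j _ hij
    by_contra h
    have h2 := H.cop h
    simp only at h2
    rw [hij] at h2
    have h3 := (Nat.coprime_self _).1 h2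
    have := H.two j
    omega
  have hcard : S.card ≤ Y := by
    rw [← card_image_of_injOn hqinj]
    have : S.image q ⊆ Icc 1 Y := by
      intro p hp
      obtain ⟨i, hi, rfl⟩ := mem_image.1 hp
      exact mem_Icc.2 ⟨by have := H.two i; omega, hYq i hi⟩
    calc (S.image q).card ≤ (Icc 1 Y).card := card_le_card this
      _ = Y := by simp
  -- the moment
  obtain ⟨x, hx⟩ : ∃ x : ℝ, x = P / (16 * C1 * Real.log P) := ⟨_, rfl⟩
  have hx1 : 1 ≤ x := by
    rw [hx, le_div_iff₀ (by positivity)]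
    linarith
  obtain ⟨m, hmd⟩ : ∃ m : ℕ, m = ⌊x⌋₊ := ⟨_, rfl⟩
  have hm1 : 1 ≤ m := by rw [hmd]; exact Nat.le_floor (by exact_mod_cast hx1)
  have hmx : (m : ℝ) ≤ x := by rw [hmd]; exact Nat.floor_le (by linarith)
  have hmx2 : x / 2 ≤ m := by
    have h1 : x < m + 1 := by rw [hmd]; exact Nat.lt_floor_add_one x
    have h2 : (1 : ℝ) ≤ m := by exact_mod_cast hm1
    linarith
  have hm0 : (0 : ℝ) < m := by
    have h2 : (1 : ℝ) ≤ m := by exact_mod_cast hm1
    linarith
  -- the size condition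
  have hbase : 8 * (S.card : ℝ) * Y ≤ Real.exp (3 * C1 * Real.log P) := by
    have h1 : (S.card : ℝ) ≤ P ^ C1 := le_trans (by exact_mod_cast hcard) hYle
    have h2 : (8 : ℝ) ≤ P ^ C1 := by
      calc (8 : ℝ) ≤ P := hP8
        _ = P ^ (1 : ℝ) := (Real.rpow_one P).symm
        _ ≤ P ^ C1 := Real.rpow_le_rpow_of_exponent_le hP1 hC1
    have h3 : Real.exp (3 * C1 * Real.log P) = P ^ C1 * P ^ C1 * P ^ C1 := by
      rw [← Real.rpow_add hP0, ← Real.rpow_add hP0, Real.rpow_def_of_pos hP0]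
      congr 1
      ring
    rw [h3]
    gcongr
  have hsize : 2 * (8 * (S.card : ℝ) * Y) ^ (2 * m) ≤ M := by
    have h1 : (8 * (S.card : ℝ) * Y) ^ (2 * m) ≤ Real.exp (3 / 8 * P) := by
      calc (8 * (S.card : ℝ) * Y) ^ (2 * m)
          ≤ Real.exp (3 * C1 * Real.log P) ^ (2 * m) := by gcongr
        _ = Real.exp ((2 * m : ℕ) * (3 * C1 * Real.log P)) := by rw [Real.exp_nat_mul]
        _ ≤ Real.exp (3 / 8 * P) := by
            apply Real.exp_le_exp.2
            have h2 : (m : ℝ) * (16 * C1 * Real.log P) ≤ P := by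
              have := mul_le_mul_of_nonneg_right hmx
                (show 0 ≤ 16 * C1 * Real.log P by positivity)
              rwa [hx, div_mul_cancel₀ _ (by positivity)] at this
            push_cast
            nlinarith
    have h2 : Real.exp (P / 2) ≤ M := by
      rw [← Real.exp_log hMR]
      exact Real.exp_le_exp.2 hM
    have h3 : (2 : ℝ) ≤ Real.exp (P / 8) := by
      have := Real.add_one_le_exp (P / 8)
      linarith
    calc 2 * (8 * (S.card : ℝ) * Y) ^ (2 * m)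
        ≤ Real.exp (P / 8) * Real.exp (3 / 8 * P) := by gcongr
      _ = Real.exp (P / 2) := by rw [← Real.exp_add]; ring_nf
      _ ≤ M := h2
  have hcap' : ∀ i < M, mu (1 + i) ≤ Real.exp (33 * Dm) / M := by
    intro i _
    rw [le_div_iff₀ hMR]
    have h1 := hcap (1 + i)
    have h2 : 2 * Real.exp (32 * Dm) ≤ Real.exp (33 * Dm) := by
      have h3 : Real.exp (33 * Dm) = Real.exp Dm * Real.exp (32 * Dm) := by
        rw [← Real.exp_add]; ring_nf
      have h4 : 2 ≤ Real.exp Dm := by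
        have := Real.add_one_le_exp Dm
        linarith
      rw [h3]
      gcongr
    linarith
  have hB1 : (1 : ℝ) ≤ P ^ (C1 * b) := Real.one_le_rpow hP1 (by positivity)
  have hB : ∀ i ∈ S, ∀ a < q i, q i * cm mu 1 M (q i) a ≤ P ^ (C1 * b) := by
    intro i hi a _
    refine (hsup i hi a).trans ?_
    rw [Real.rpow_mul hP0.le]
    exact Real.rpow_le_rpow (by positivity) (hY i hi) hb0
  have h := rho_sum H S hu hl hYq hM0 hm1 (D := 33 * Dm) (by linarith) hlaw.nonneg hlaw.sum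
    hcap' hsize hB1 hB
  refine h.trans ?_
  have h1 : 128 * (m : ℝ) ≤ P := by
    have h2 : 128 * x ≤ P := by
      rw [hx, ← mul_div_assoc, div_le_iff₀ (by positivity)]
      have h3 : 128 ≤ 16 * C1 * Real.log P := by
        have : 16 * 1 * 8 ≤ 16 * C1 * Real.log P := by gcongr
        linarith
      nlinarith
    linarith
  have h2 : Real.exp (33 * Dm / m) ≤ P ^ (1056 * C1 * κ) := by
    rw [Real.rpow_def_of_pos hP0]
    apply Real.exp_le_exp.2
    rw [div_le_iff₀ hm0]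
    have h3 : 0 ≤ κ := by
      by_contra h4
      have : κ * P < 0 := mul_neg_of_neg_of_pos (not_le.1 h4) hP0
      linarith
    have h4 : x / 2 * (32 * C1 * Real.log P) = P := by
      rw [hx]
      field_simp
      ring
    have h5 : P ≤ m * (32 * C1 * Real.log P) := by
      have h6 : x / 2 * (32 * C1 * Real.log P) ≤ m * (32 * C1 * Real.log P) :=
        mul_le_mul_of_nonneg_right hmx2 (by positivity)
      linarith
    calc 33 * Dm ≤ 33 * (κ * P) := by linarith
      _ = 33 * κ * P := by ring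
      _ ≤ 33 * κ * (m * (32 * C1 * Real.log P)) := by gcongr
      _ = Real.log P * (1056 * C1 * κ) * m := by ring
  calc P ^ (C1 * b) * (128 * m * Real.exp (33 * Dm / m))
      ≤ P ^ (C1 * b) * (P * P ^ (1056 * C1 * κ)) := by gcongr
    _ = P ^ (1 + (C1 * b + 1056 * C1 * κ)) := by
        rw [Real.rpow_add hP0, Real.rpow_add hP0, Real.rpow_one]
        ring
    _ ≤ P ^ (1 + γ) := Real.rpow_le_rpow_of_exponent_le hP1 (by linarith)
    _ = Real.exp ((1 + γ) * Real.log P) := by rw [Real.rpow_def_of_pos hP0]; ring_nf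

end typed

end Vale.Agent.P042.H540
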