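import Vale.Agent.P042.H779.Basic

/-! Replicas of a law on a finite product, and expectations of functions of one point whose
coordinates are read off in different replicas. -/

set_option linter.unusedSectionVars false
set_option linter.unusedDecidableInType false

namespace Vale.Agent.P042.H540

open Finset Vale.Agent.P042.H779

variable {ι : Type*} [Fintype ι] [DecidableEq ι] {V : ι → Type*} [∀ i, Fintype (V i)]
  [∀ i, DecidableEq (V i)]

/-- `F` depends only on the coordinates in `e`. -/
def Loc (e : Finset ι) (F : (∀ i, V i) → ℝ) : Prop :=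
  ∀ x y : ∀ i, V i, (∀ j ∈ e, x j = y j) → F x = F y

/-- The product of `N` copies of `μ`, on the index set `ι × Fin N`. -/
noncomputable def rep (μ : (∀ i, V i) → ℝ) (N : ℕ) : (∀ p : ι × Fin N, V p.1) → ℝ :=
  fun y => ∏ r, μ (fun i => y (i, r))

/-- Product of different laws on the replicas. -/
noncomputable def repF {N : ℕ} (ν : Fin N → (∀ i, V i) → ℝ) : (∀ p : ι × Fin N, V p.1) → ℝ :=
  fun y => ∏ r, ν r (fun i => y (i, r))

lemma rep_eq_repF (μ : (∀ i, V i) → ℝ) (N : ℕ) : rep μ N = repF (fun _ : Fin N => μ) := rfl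

/-- Currying. -/
def curE (N : ℕ) : (∀ p : ι × Fin N, V p.1) ≃ (Fin N → ∀ i, V i) where
  toFun y r i := y (i, r)
  invFun z p := z p.2 p.1
  left_inv y := by funext p; rfl
  right_inv z := by funext r i; rfl

lemma sum_repF {N : ℕ} (f : Fin N → (∀ i, V i) → ℝ) :
    ∑ y : (∀ p : ι × Fin N, V p.1), ∏ r, f r (fun i => y (i, r)) = ∏ r, ∑ x, f r x := by
  rw [Finset.prod_univ_sum, Fintype.piFinset_univ]
  exact Fintype.sum_equiv (curE N) _ _ (fun y => rfl)

/-- Resolution of a function which depends only on the coordinates in `e`. -/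
lemma resolve (m : ∀ i, V i → ℝ) (hm : ∀ i, ∑ a, m i a = 1) (e : Finset ι)
    (F : (∀ i, V i) → ℝ) (hF : Loc e F) (z : ∀ i, V i) :
    F z = ∑ v : (∀ i, V i), (∏ j ∈ eᶜ, m j (v j)) * F v *
      ∏ j ∈ e, (if z j = v j then (1 : ℝ) else 0) := by
  have h1 : ∀ v : (∀ i, V i), (∏ j ∈ eᶜ, m j (v j)) * F v *
      ∏ j ∈ e, (if z j = v j then (1 : ℝ) else 0)
      = F z * ∏ j, (if j ∈ e then (if z j = v j then (1 : ℝ) else 0) else m j (v j)) := by
    intro v
    have e0 : ∏ j, (if j ∈ e then (if z j = v j then (1 : ℝ) else 0) else m j (v j))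
        = (∏ j ∈ e, (if z j = v j then (1 : ℝ) else 0)) * ∏ j ∈ eᶜ, m j (v j) := by
      rw [← Finset.prod_mul_prod_compl e]
      congr 1
      · exact Finset.prod_congr rfl fun j hj => if_pos hj
      · exact Finset.prod_congr rfl fun j hj => if_neg (by simpa using hj)
    rw [e0]
    by_cases h : ∀ j ∈ e, z j = v j
    · rw [hF z v h]; ring
    · push Not at h
      obtain ⟨j, hj, hne⟩ := h
      have : ∏ j ∈ e, (if z j = v j then (1 : ℝ) else 0) = 0 :=
        Finset.prod_eq_zero hj (if_neg hne)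
      rw [this]; ring
  rw [Finset.sum_congr rfl fun v _ => h1 v, ← Finset.mul_sum]
  have h2 : ∑ v : (∀ i, V i), ∏ j, (if j ∈ e then (if z j = v j then (1 : ℝ) else 0)
      else m j (v j)) = 1 := by
    have := Finset.prod_univ_sum (fun j : ι => (univ : Finset (V j)))
      (fun j a => if j ∈ e then (if z j = a then (1 : ℝ) else 0) else m j a)
    rw [Fintype.piFinset_univ] at this
    rw [← this]
    refine Finset.prod_eq_one fun j _ => ?_
    by_cases hj : j ∈ e
    · simp [hj]
    · simp [hj, hm j]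
  rw [h2, mul_one]

/-- Expectation, under a product of laws on the replicas, of a function of the point whose
`j`-th coordinate is read off in the replica `ρ j`. -/
lemma repF_point {N : ℕ} (ν : Fin N → (∀ i, V i) → ℝ) (m : ∀ i, V i → ℝ)
    (hm : ∀ i, ∑ a, m i a = 1) (e : Finset ι) (ρ : ι → Fin N)
    (F : (∀ i, V i) → ℝ) (hF : Loc e F) :
    ∑ y : (∀ p : ι × Fin N, V p.1), repF ν y * F (fun j => y (j, ρ j))
      = ∑ v : (∀ i, V i), (∏ j ∈ eᶜ, m j (v j)) * F v *
        ∏ r, marg (ν r) (e.filter fun j => ρ j = r) v := by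
  have h1 : ∀ y : (∀ p : ι × Fin N, V p.1), repF ν y * F (fun j => y (j, ρ j))
      = ∑ v : (∀ i, V i), (∏ j ∈ eᶜ, m j (v j)) * F v *
        ∏ r, (if ∀ j ∈ e.filter (fun j => ρ j = r), y (j, r) = v j
          then ν r (fun i => y (i, r)) else 0) := by
    intro y
    rw [resolve m hm e F hF (fun j => y (j, ρ j)), Finset.mul_sum]
    refine Finset.sum_congr rfl fun v _ => ?_
    have h2 : ∏ j ∈ e, (if y (j, ρ j) = v j then (1 : ℝ) else 0)
        = ∏ r, ∏ j ∈ e.filter (fun j => ρ j = r), (if y (j, r) = v j then (1 : ℝ) else 0) := by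
      rw [← Finset.prod_fiberwise_of_maps_to (s := e) (t := univ) (g := ρ)
        (fun j _ => mem_univ _)]
      refine Finset.prod_congr rfl fun r _ => Finset.prod_congr rfl fun j hj => ?_
      rw [(mem_filter.mp hj).2]
    have h3 : ∀ r : Fin N, (if ∀ j ∈ e.filter (fun j => ρ j = r), y (j, r) = v j
          then ν r (fun i => y (i, r)) else 0)
        = ν r (fun i => y (i, r)) *
          ∏ j ∈ e.filter (fun j => ρ j = r), (if y (j, r) = v j then (1 : ℝ) else 0) := by
      intro r
      by_cases h : ∀ j ∈ e.filter (fun j => ρ j = r), y (j, r) = v j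
      · rw [if_pos h, Finset.prod_congr rfl (fun j hj => if_pos (h j hj))]
        simp
      · rw [if_neg h]
        push Not at h
        obtain ⟨j, hj, hne⟩ := h
        rw [Finset.prod_eq_zero hj (if_neg hne), mul_zero]
    rw [h2, Finset.prod_congr rfl fun r _ => h3 r, Finset.prod_mul_distrib]
    unfold repF
    ring
  rw [Finset.sum_congr rfl fun y _ => h1 y, Finset.sum_comm]
  refine Finset.sum_congr rfl fun v _ => ?_
  rw [← Finset.mul_sum]
  congr 1
  rw [sum_repF (fun r x => if ∀ j ∈ e.filter (fun j => ρ j = r), x j = v j then ν r x else 0)]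
  rfl

end Vale.Agent.P042.H540
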