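import Vale.Agent.P042.H540.Hf2
import Vale.Agent.P042.H540.Alg

/-! Rotated families on the replicas: locality, vanishing of all partial means, norms. -/

set_option linter.unusedSectionVars false
set_option linter.unusedDecidableInType false

namespace Vale.Agent.P042.H540

open Finset Vale.Agent.P042.H779

variable {ι : Type*} [Fintype ι] [DecidableEq ι] {V : ι → Type*} [∀ i, Fintype (V i)]
  [∀ i, DecidableEq (V i)]

/-- The transversal of `e` given by the labels `ρ`. -/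
def gr {d : ℕ} (e : Finset ι) (ρ : ι → Fin (d + 1)) : Finset (ι × Fin (d + 1)) :=
  e.image fun j => (j, ρ j)

lemma mem_gr {d : ℕ} {e : Finset ι} {ρ : ι → Fin (d + 1)} {p : ι × Fin (d + 1)} :
    p ∈ gr e ρ ↔ p.1 ∈ e ∧ ρ p.1 = p.2 := by
  unfold gr
  rw [mem_image]
  constructor
  · rintro ⟨j, hj, rfl⟩; exact ⟨hj, rfl⟩
  · rintro ⟨h1, h2⟩; exact ⟨p.1, h1, by rw [h2]⟩

lemma card_gr {d : ℕ} (e : Finset ι) (ρ : ι → Fin (d + 1)) : (gr e ρ).card = e.card :=
  card_image_of_injective _ fun _ _ h => (Prod.mk.injEq _ _ _ _ ▸ h).1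

lemma image_gr {d : ℕ} (e : Finset ι) (ρ : ι → Fin (d + 1)) : (gr e ρ).image Prod.fst = e := by
  unfold gr
  rw [image_image]
  ext j
  simp

lemma gr_inj {d : ℕ} {e e' : Finset ι} {ρ ρ' : ι → Fin (d + 1)} (hρ : ρ ∈ Rho d e)
    (hρ' : ρ' ∈ Rho d e') (h : gr e ρ = gr e' ρ') : e = e' ∧ ρ = ρ' := by
  have he : e = e' := by rw [← image_gr e ρ, h, image_gr]
  subst he
  refine ⟨rfl, ?_⟩
  funext j
  by_cases hj : j ∈ e
  · have : (j, ρ j) ∈ gr e ρ' := by rw [← h]; exact mem_gr.mpr ⟨hj, rfl⟩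
    exact (mem_gr.mp this).2.symm
  · rw [mem_Rho.mp hρ j hj, mem_Rho.mp hρ' j hj]

/-- The index set of the rotated family. -/
def Idx (ι : Type*) [Fintype ι] [DecidableEq ι] (d : ℕ) :
    Finset (Finset ι × (ι → Fin (d + 1))) :=
  univ.filter fun q => q.1.card = d ∧ q.2 ∈ Rho d q.1

lemma mem_Idx {d : ℕ} {q : Finset ι × (ι → Fin (d + 1))} :
    q ∈ Idx ι d ↔ q.1.card = d ∧ q.2 ∈ Rho d q.1 := by
  simp [Idx]

lemma sum_Idx {d : ℕ} {R : Type*} [AddCommMonoid R]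
    (f : Finset ι → (ι → Fin (d + 1)) → R) :
    ∑ q ∈ Idx ι d, f q.1 q.2 = ∑ e ∈ powersetCard d univ, ∑ ρ ∈ Rho d e, f e ρ := by
  rw [Finset.sum_sigma']
  refine Finset.sum_bij' (fun q _ => (⟨q.1, q.2⟩ : Σ _ : Finset ι, (ι → Fin (d + 1))))
    (fun s _ => (s.1, s.2)) ?_ ?_ ?_ ?_ ?_
  · intro q hq
    rw [mem_Idx] at hq
    simp only [mem_sigma, mem_powersetCard]
    exact ⟨⟨subset_univ _, hq.1⟩, hq.2⟩
  · intro s hs
    simp only [mem_sigma, mem_powersetCard] at hs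
    exact mem_Idx.mpr ⟨hs.1.2, hs.2⟩
  · intro q _; rfl
  · intro s _; rfl
  · intro q _; rfl

/-- The rotated family attached to the kernels `ψ e`, `|e| = d`. -/
noncomputable def rotT (d : ℕ) (ψ : Finset ι → (∀ i, V i) → ℝ) (D : Finset (ι × Fin (d + 1)))
    (y : ∀ p : ι × Fin (d + 1), V p.1) : ℝ :=
  ∑ q ∈ Idx ι d, if D = gr q.1 q.2 then (wt d q.1 q.2).re * ψ q.1 (fun j => y (j, q.2 j)) else 0

/-- `u` on `J`, `y` elsewhere. -/
def mix {κ : Type*} [DecidableEq κ] {U : κ → Type*} (J : Finset κ) (u y : ∀ p, U p) : ∀ p, U p :=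
  fun p => if p ∈ J then u p else y p

/-- (R1) locality. -/
lemma rotT_loc (d : ℕ) (ψ : Finset ι → (∀ i, V i) → ℝ) (hψ : ∀ e, Loc e (ψ e))
    (D : Finset (ι × Fin (d + 1))) : Loc (V := fun p : ι × Fin (d + 1) => V p.1) D (rotT d ψ D) := by
  intro x y hxy
  unfold rotT
  refine sum_congr rfl fun q _ => ?_
  by_cases h : D = gr q.1 q.2
  · rw [if_pos h, if_pos h]
    congr 1
    refine hψ q.1 _ _ fun j hj => ?_
    exact hxy (j, q.2 j) (by rw [h]; exact mem_gr.mpr ⟨hj, rfl⟩)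
  · rw [if_neg h, if_neg h]

lemma rotT_card (d : ℕ) (ψ : Finset ι → (∀ i, V i) → ℝ) (D : Finset (ι × Fin (d + 1)))
    (hD : D.card ≠ d) (y : ∀ p : ι × Fin (d + 1), V p.1) : rotT d ψ D y = 0 := by
  unfold rotT
  refine sum_eq_zero fun q hq => ?_
  rw [if_neg]
  intro hc
  apply hD
  rw [hc, card_gr, (mem_Idx.mp hq).1]

/-- Summation of the family against any function of the supports. -/
lemma sum_rotT (d : ℕ) (ψ : Finset ι → (∀ i, V i) → ℝ) (c : Finset (ι × Fin (d + 1)) → ℝ)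
    (y : ∀ p : ι × Fin (d + 1), V p.1) :
    ∑ D, c D * rotT d ψ D y = ∑ q ∈ Idx ι d, c (gr q.1 q.2) *
      ((wt d q.1 q.2).re * ψ q.1 (fun j => y (j, q.2 j))) := by
  unfold rotT
  simp_rw [mul_sum]
  rw [sum_comm]
  refine sum_congr rfl fun q _ => ?_
  rw [sum_eq_single (gr q.1 q.2)]
  · rw [if_pos rfl]
  · intro D _ hD; rw [if_neg hD, mul_zero]
  · intro h; exact absurd (mem_univ _) h

/-- Cyclic shift of the replicas. -/
def shE (d : ℕ) : (∀ p : ι × Fin (d + 1), V p.1) ≃ (∀ p : ι × Fin (d + 1), V p.1) where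
  toFun y p := y (p.1, p.2 + 1)
  invFun y p := y (p.1, p.2 - 1)
  left_inv y := by
    funext p
    obtain ⟨i, r⟩ := p
    show y (i, r - 1 + 1) = y (i, r)
    rw [sub_add_cancel]
  right_inv y := by
    funext p
    obtain ⟨i, r⟩ := p
    show y (i, r + 1 - 1) = y (i, r)
    rw [add_sub_cancel_right]

lemma rep_shE (μ : (∀ i, V i) → ℝ) (d : ℕ) (y : ∀ p : ι × Fin (d + 1), V p.1) :
    rep μ (d + 1) (shE d y) = rep μ (d + 1) y := by
  unfold rep shE
  exact Equiv.prod_comp (Equiv.addRight (1 : Fin (d + 1))) (fun r => μ (fun i => y (i, r)))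

/-- The mean of a kernel on a transversal with some coordinates frozen does not change when
the free labels are shifted. -/
lemma mean_shift (μ : (∀ i, V i) → ℝ) (d : ℕ) (e : Finset ι) (ψ : (∀ i, V i) → ℝ)
    (hψ : Loc e ψ) (J : Finset (ι × Fin (d + 1))) (u : ∀ p : ι × Fin (d + 1), V p.1)
    (ρ : ι → Fin (d + 1)) (hJ : J ⊆ gr e ρ) :
    ∑ y, rep μ (d + 1) y * ψ (fun j => mix J u y (j, sh (e \ J.image Prod.fst) ρ j))
      = ∑ y, rep μ (d + 1) y * ψ (fun j => mix J u y (j, ρ j)) := by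
  rw [← Equiv.sum_comp (shE d) (fun y => rep μ (d + 1) y * ψ (fun j => mix J u y (j, ρ j)))]
  refine sum_congr rfl fun y _ => ?_
  rw [rep_shE]
  congr 1
  refine hψ _ _ fun j hj => ?_
  unfold mix sh
  by_cases hjJ : j ∈ J.image Prod.fst
  · have h1 : j ∉ e \ J.image Prod.fst := fun hc => (mem_sdiff.mp hc).2 hjJ
    rw [if_neg h1]
    obtain ⟨p, hp, hpj⟩ := mem_image.mp hjJ
    have h2 : (j, ρ j) ∈ J := by
      have := (mem_gr.mp (hJ hp)).2
      rw [hpj] at this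
      have h3 : p = (j, ρ j) := by
        rw [← hpj]
        exact Prod.ext rfl (by rw [hpj]; exact this.symm)
      rw [← h3]; exact hp
    rw [if_pos h2, if_pos h2]
  · have h1 : j ∈ e \ J.image Prod.fst := mem_sdiff.mpr ⟨hj, hjJ⟩
    rw [if_pos h1]
    have h2 : ∀ r, (j, r) ∉ J := fun r hc => hjJ (mem_image.mpr ⟨_, hc, rfl⟩)
    rw [if_neg (h2 _), if_neg (h2 _)]
    rfl

/-- (R2) All partial means of the rotated family vanish. -/
theorem rotT_Z (μ : (∀ i, V i) → ℝ) (d : ℕ) (ψ : Finset ι → (∀ i, V i) → ℝ)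
    (hψ : ∀ e, Loc e (ψ e)) (J : Finset (ι × Fin (d + 1))) (hJ : J.card < d)
    (u : ∀ p : ι × Fin (d + 1), V p.1) :
    ∑ D ∈ univ.filter (fun D => J ⊆ D), ∑ y, rep μ (d + 1) y * rotT d ψ D (mix J u y) = 0 := by
  classical
  have h1 : ∑ D ∈ univ.filter (fun D => J ⊆ D), ∑ y, rep μ (d + 1) y * rotT d ψ D (mix J u y)
      = ∑ y, rep μ (d + 1) y * ∑ D, (if J ⊆ D then (1 : ℝ) else 0) * rotT d ψ D (mix J u y) := by
    rw [sum_comm]
    refine sum_congr rfl fun y _ => ?_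
    rw [sum_filter, mul_sum]
    refine sum_congr rfl fun D _ => ?_
    split_ifs <;> ring
  rw [h1]
  simp_rw [sum_rotT]
  simp_rw [mul_sum]
  rw [sum_comm]
  rw [sum_Idx (fun e ρ => ∑ y, rep μ (d + 1) y * ((if J ⊆ gr e ρ then (1 : ℝ) else 0) *
    ((wt d e ρ).re * ψ e (fun j => mix J u y (j, ρ j)))))]
  refine sum_eq_zero fun e he => ?_
  have hed : e.card = d := (mem_powersetCard.mp he).2
  set A : (ι → Fin (d + 1)) → ℝ := fun ρ =>
    ∑ y, rep μ (d + 1) y * ψ e (fun j => mix J u y (j, ρ j)) with hA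
  have h2 : ∑ ρ ∈ Rho d e, ∑ y, rep μ (d + 1) y * ((if J ⊆ gr e ρ then (1 : ℝ) else 0) *
      ((wt d e ρ).re * ψ e (fun j => mix J u y (j, ρ j))))
      = (∑ ρ ∈ (Rho d e).filter (fun ρ => J ⊆ gr e ρ), wt d e ρ * (A ρ : ℂ)).re := by
    rw [Complex.re_sum, sum_filter]
    refine sum_congr rfl fun ρ _ => ?_
    rw [hA]
    split_ifs with h
    · rw [Complex.re_mul_ofReal, mul_sum]
      exact sum_congr rfl fun y _ => by ring
    · simp
  rw [h2]
  have hcard : 0 < (e \ J.image Prod.fst).card := by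
    have h3 := le_card_sdiff (J.image Prod.fst) e
    have h4 := card_image_le (s := J) (f := Prod.fst)
    omega
  have h3 : ∑ ρ ∈ (Rho d e).filter (fun ρ => J ⊆ gr e ρ), wt d e ρ * (A ρ : ℂ) = 0 := by
    refine sum_zero_of_shift _ (sh (e \ J.image Prod.fst)) ?_ (sh_inj _) _
      (zet d ^ (e \ J.image Prod.fst).card)
      ((zet_prim d).pow_ne_one_of_pos_of_lt hcard.ne' ?_) ?_
    · intro ρ hρ
      obtain ⟨h4, h5⟩ := mem_filter.mp hρ
      refine mem_filter.mpr ⟨sh_mem_Rho sdiff_subset h4, ?_⟩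
      intro p hp
      have h6 := mem_gr.mp (h5 hp)
      rw [mem_gr]
      refine ⟨h6.1, ?_⟩
      unfold sh
      rw [if_neg (fun hc => (mem_sdiff.mp hc).2 (mem_image.mpr ⟨p, hp, rfl⟩))]
      exact h6.2
    · have := card_le_card (sdiff_subset (s := e) (t := J.image Prod.fst))
      omega
    · intro ρ hρ
      obtain ⟨_, h5⟩ := mem_filter.mp hρ
      rw [wt_sh sdiff_subset]
      have : A (sh (e \ J.image Prod.fst) ρ) = A ρ := by
        rw [hA]
        exact mean_shift μ d e (ψ e) (hψ e) J u ρ h5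
      rw [this]
      ring
  rw [h3, Complex.zero_re]

end Vale.Agent.P042.H540
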