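import Vale.Agent.P042.H540.Rot

/-! Rotated families on the replicas: norms and the exact testing identity. -/

set_option linter.unusedSectionVars false
set_option linter.unusedDecidableInType false

namespace Vale.Agent.P042.H540

open Finset Vale.Agent.P042.H779

variable {ι : Type*} [Fintype ι] [DecidableEq ι] {V : ι → Type*} [∀ i, Fintype (V i)]
  [∀ i, DecidableEq (V i)]

lemma m1_rep {μ : (∀ i, V i) → ℝ} (h : IsProb μ) (N : ℕ) (p : ι × Fin N) (a : V p.1) :
    m1 (V := fun p : ι × Fin N => V p.1) (rep μ N) p a = m1 μ p.1 a := by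
  obtain ⟨i, r⟩ := p
  unfold m1
  have h1 : ∀ y : (∀ p : ι × Fin N, V p.1), (if y (i, r) = a then rep μ N y else 0)
      = ∏ s, (if s = r then (if y (i, s) = a then μ (fun j => y (j, s)) else 0)
        else μ (fun j => y (j, s))) := by
    intro y
    rw [← mul_prod_erase univ _ (mem_univ r)]
    simp only [if_true]
    have h2 : ∏ s ∈ univ.erase r, (if s = r then (if y (i, s) = a then μ (fun j => y (j, s)) else 0)
        else μ (fun j => y (j, s))) = ∏ s ∈ univ.erase r, μ (fun j => y (j, s)) := by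
      refine prod_congr rfl fun s hs => ?_
      rw [if_neg (ne_of_mem_erase hs)]
    rw [h2]
    unfold rep
    rw [← mul_prod_erase univ (fun s => μ (fun j => y (j, s))) (mem_univ r)]
    split_ifs <;> ring
  simp_rw [h1]
  rw [sum_repF (fun s x => if s = r then (if x i = a then μ x else 0) else μ x)]
  rw [← mul_prod_erase univ _ (mem_univ r)]
  simp only [if_true]
  rw [prod_congr rfl (g := fun _ => (1 : ℝ)), prod_const_one, mul_one]
  intro s hs
  simp [ne_of_mem_erase hs, h.sum_eq]

lemma pw_rep {μ : (∀ i, V i) → ℝ} (h : IsProb μ) (N : ℕ) :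
    pw (V := fun p : ι × Fin N => V p.1) (rep μ N) = rep (pw μ) N := by
  funext y
  unfold pw rep
  rw [← Finset.univ_product_univ, Finset.prod_product_right]
  refine prod_congr rfl fun r _ => prod_congr rfl fun i _ => ?_
  exact m1_rep h N (i, r) (y (i, r))

lemma isProb_rep {μ : (∀ i, V i) → ℝ} (h : IsProb μ) (N : ℕ) :
    IsProb (V := fun p : ι × Fin N => V p.1) (rep μ N) where
  nonneg y := prod_nonneg fun r _ => h.nonneg _
  sum_eq := by
    have := sum_repF (V := V) (fun _ : Fin N => μ)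
    unfold rep
    rw [this]
    simp [h.sum_eq]

lemma marg_pw {μ : (∀ i, V i) → ℝ} (h : IsProb μ) (A : Finset ι) (v : ∀ i, V i) :
    marg (pw μ) A v = ∏ j ∈ A, m1 μ j (v j) := by
  have h1 := resolve (m1 μ) (m1_sum h) A (fun x => ∏ j ∈ A, m1 μ j (x j))
    (fun x y hxy => prod_congr rfl fun j hj => by rw [hxy j hj]) v
  rw [h1]
  unfold marg
  refine sum_congr rfl fun y _ => ?_
  by_cases hy : ∀ i ∈ A, y i = v i
  · rw [if_pos hy]
    rw [prod_congr rfl (g := fun _ => (1 : ℝ)) (fun j hj => if_pos (hy j hj).symm)]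
    unfold pw
    rw [prod_const_one, mul_one, mul_comm, prod_mul_prod_compl]
  · rw [if_neg hy]
    push Not at hy
    obtain ⟨j, hj, hne⟩ := hy
    have h0 : ∏ j ∈ A, (if v j = y j then (1 : ℝ) else 0) = 0 :=
      prod_eq_zero hj (if_neg (Ne.symm hne))
    rw [h0, mul_zero]

/-- Under the product law the transversal point has the product law. -/
lemma pw_rep_point {μ : (∀ i, V i) → ℝ} (h : IsProb μ) (d : ℕ) (e : Finset ι)
    (ρ : ι → Fin (d + 1)) (F : (∀ i, V i) → ℝ) (hF : Loc e F) :
    ∑ y, pw (V := fun p : ι × Fin (d + 1) => V p.1) (rep μ (d + 1)) y * F (fun j => y (j, ρ j))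
      = ∑ v, pw μ v * F v := by
  rw [pw_rep h]
  have := repF_point (fun _ : Fin (d + 1) => pw μ) (m1 μ) (m1_sum h) e ρ F hF
  rw [rep_eq_repF, this]
  refine sum_congr rfl fun v _ => ?_
  simp_rw [marg_pw h]
  rw [prod_fiberwise_of_maps_to (s := e) (t := univ) (g := ρ) (fun j _ => mem_univ _)
    (f := fun j => m1 μ j (v j))]
  unfold pw
  rw [← prod_mul_prod_compl e (fun j => m1 μ j (v j))]
  ring

lemma abs_wt_re_le (d : ℕ) (e : Finset ι) (ρ : ι → Fin (d + 1)) : (wt d e ρ).re ^ 2 ≤ 1 := by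
  have h1 : ‖wt d e ρ‖ = 1 := by
    unfold wt
    rw [norm_prod]
    exact prod_eq_one fun j _ => norm_om d _
  have h2 := Complex.abs_re_le_norm (wt d e ρ)
  rw [h1] at h2
  exact (sq_le_one_iff_abs_le_one _).mpr h2

/-- The square of the family: the supports of the terms are different. -/
lemma rotT_sq (d : ℕ) (ψ : Finset ι → (∀ i, V i) → ℝ) (D : Finset (ι × Fin (d + 1)))
    (y : ∀ p : ι × Fin (d + 1), V p.1) :
    rotT d ψ D y ^ 2 = ∑ q ∈ Idx ι d, if D = gr q.1 q.2 then
      ((wt d q.1 q.2).re * ψ q.1 (fun j => y (j, q.2 j))) ^ 2 else 0 := by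
  classical
  by_cases h : ∃ q ∈ Idx ι d, D = gr q.1 q.2
  · obtain ⟨q, hq, hD⟩ := h
    have huniq : ∀ q' ∈ Idx ι d, q' ≠ q → D ≠ gr q'.1 q'.2 := by
      intro q' hq' hne hc
      apply hne
      have := gr_inj (mem_Idx.mp hq').2 (mem_Idx.mp hq).2 (hc.symm.trans hD)
      exact Prod.ext this.1 this.2
    unfold rotT
    rw [sum_eq_single_of_mem q hq (fun q' hq' hne => if_neg (huniq q' hq' hne)),
      sum_eq_single_of_mem q hq (fun q' hq' hne => if_neg (huniq q' hq' hne)),
      if_pos hD, if_pos hD]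
  · push Not at h
    unfold rotT
    rw [sum_eq_zero (fun q hq => if_neg (h q hq)), sum_eq_zero (fun q hq => if_neg (h q hq))]
    norm_num

/-- (R3) The norm of the rotated family, with arbitrary nonnegative weights of the supports. -/
theorem rotT_norm {μ : (∀ i, V i) → ℝ} (h : IsProb μ) (d : ℕ)
    (ψ : Finset ι → (∀ i, V i) → ℝ) (hψ : ∀ e, Loc e (ψ e)) (w : ι → ℝ) (hw : ∀ i, 0 ≤ w i) :
    ∑ D, (∏ p ∈ D, w p.1) * ∑ y, pw (V := fun p : ι × Fin (d + 1) => V p.1) (rep μ (d + 1)) y *
        rotT d ψ D y ^ 2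
      ≤ (d + 1 : ℝ) ^ d * ∑ e ∈ powersetCard d univ, (∏ i ∈ e, w i) * ∑ v, pw μ v * ψ e v ^ 2 := by
  have h1 : ∀ D : Finset (ι × Fin (d + 1)),
      (∏ p ∈ D, w p.1) * ∑ y, pw (V := fun p : ι × Fin (d + 1) => V p.1) (rep μ (d + 1)) y *
        rotT d ψ D y ^ 2
      = ∑ q ∈ Idx ι d, if D = gr q.1 q.2 then (∏ i ∈ q.1, w i) * ((wt d q.1 q.2).re ^ 2 *
        ∑ v, pw μ v * ψ q.1 v ^ 2) else 0 := by
    intro D
    simp_rw [rotT_sq, mul_sum]
    rw [sum_comm]
    refine sum_congr rfl fun q _ => ?_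
    by_cases hD : D = gr q.1 q.2
    · simp only [hD, if_true]
      have hprod : ∏ p ∈ gr q.1 q.2, w p.1 = ∏ i ∈ q.1, w i := by
        unfold gr
        rw [prod_image]
        intro a _ b _ hab
        exact (Prod.mk.injEq _ _ _ _ ▸ hab).1
      rw [hprod]
      have h2 := pw_rep_point h d q.1 q.2 (fun v => ψ q.1 v ^ 2)
        (fun x y hxy => by simp only [hψ q.1 x y hxy])
      have h3 : ∑ i, (∏ i ∈ q.1, w i) * ((wt d q.1 q.2).re ^ 2 * (pw μ i * ψ q.1 i ^ 2))
          = (∏ i ∈ q.1, w i) * ((wt d q.1 q.2).re ^ 2 * ∑ v, pw μ v * ψ q.1 v ^ 2) := by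
        rw [mul_sum, mul_sum]
      rw [h3, ← h2, mul_sum, mul_sum]
      refine sum_congr rfl fun y _ => ?_
      ring
    · simp only [hD, if_false, mul_zero]
      exact sum_const_zero
  simp_rw [h1]
  rw [sum_comm]
  have h2 : ∀ q ∈ Idx ι d, ∑ D, (if D = gr q.1 q.2 then (∏ i ∈ q.1, w i) *
      ((wt d q.1 q.2).re ^ 2 * ∑ v, pw μ v * ψ q.1 v ^ 2) else 0)
      ≤ (∏ i ∈ q.1, w i) * ∑ v, pw μ v * ψ q.1 v ^ 2 := by
    intro q _
    rw [sum_ite_eq' univ, if_pos (mem_univ _)]
    refine mul_le_mul_of_nonneg_left ?_ (prod_nonneg fun i _ => hw i)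
    have h3 : 0 ≤ ∑ v, pw μ v * ψ q.1 v ^ 2 :=
      sum_nonneg fun v _ => mul_nonneg (pw_nonneg h v) (sq_nonneg _)
    nlinarith [abs_wt_re_le d q.1 q.2]
  refine (sum_le_sum h2).trans ?_
  rw [sum_Idx (fun e _ => (∏ i ∈ e, w i) * ∑ v, pw μ v * ψ e v ^ 2), mul_sum]
  refine sum_le_sum fun e he => ?_
  rw [sum_const, card_Rho, (mem_powersetCard.mp he).2, nsmul_eq_mul]
  push_cast
  exact le_rfl

/-- The law pinned at one coordinate (sub-probability form: no normalisation). -/
noncomputable def pin (μ : (∀ i, V i) → ℝ) (i : ι) (a : V i) : (∀ i, V i) → ℝ :=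
  fun x => if x i = a then μ x else 0

lemma marg_pin (μ : (∀ i, V i) → ℝ) {i : ι} (a : V i) {A : Finset ι} (hi : i ∉ A)
    (v : ∀ i, V i) : marg (pin μ i a) A v = marg μ (insert i A) (Function.update v i a) := by
  unfold marg pin
  refine sum_congr rfl fun y _ => ?_
  have key : (∀ j ∈ insert i A, y j = Function.update v i a j) ↔
      (y i = a ∧ ∀ j ∈ A, y j = v j) := by
    constructor
    · intro h
      refine ⟨by simpa using h i (mem_insert_self i A), fun j hj => ?_⟩
      have hji : j ≠ i := fun h => hi (h ▸ hj)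
      have := h j (mem_insert_of_mem hj)
      simpa [hji] using this
    · rintro ⟨h1, h2⟩ j hj
      rcases mem_insert.mp hj with rfl | hj
      · simpa using h1
      · have hji : j ≠ i := fun h => hi (h ▸ hj)
        simpa [hji] using h2 j hj
  by_cases h1 : ∀ j ∈ A, y j = v j <;> by_cases h2 : y i = a
  · rw [if_pos h1, if_pos h2, if_pos (key.mpr ⟨h2, h1⟩)]
  · rw [if_pos h1, if_neg h2, if_neg (fun hc => h2 (key.mp hc).1)]
  · rw [if_neg h1, if_neg (fun hc => h1 (key.mp hc).2)]
  · rw [if_neg h1, if_neg (fun hc => h1 (key.mp hc).2)]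

lemma marg_eq_prod_gd {μ : (∀ i, V i) → ℝ} (h : IsProb μ) (A : Finset ι) (v : ∀ i, V i) :
    marg μ A v = (∏ j ∈ A, m1 μ j (v j)) * gd μ A v := by
  unfold gd
  by_cases h0 : ∏ j ∈ A, m1 μ j (v j) = 0
  · obtain ⟨j, hj, hj0⟩ := prod_eq_zero_iff.mp h0
    have : marg μ A v = 0 := le_antisymm (hj0 ▸ marg_le_m1 h hj v) (marg_nonneg h A v)
    rw [h0, this]; simp
  · rw [mul_div_cancel₀ _ h0]

/-- The Hoeffding parts of the law pinned at `x_i = a`. -/
noncomputable def hp (μ : (∀ i, V i) → ℝ) (i : ι) (a : V i) (C : Finset ι) (v : ∀ i, V i) : ℝ :=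
  hf μ C v + hf μ (insert i C) (Function.update v i a)

lemma sum_hp (μ : (∀ i, V i) → ℝ) {i : ι} (a : V i) {A : Finset ι} (hi : i ∉ A)
    (v : ∀ i, V i) :
    ∑ C ∈ A.powerset, hp μ i a C v = gd μ (insert i A) (Function.update v i a) := by
  rw [← sum_hf μ (insert i A), sum_powerset_insert hi, ← sum_add_distrib]
  refine sum_congr rfl fun C hC => ?_
  have hiC : i ∉ C := fun hc => hi (mem_powerset.mp hC hc)
  unfold hp
  rw [Loc.update (hf_loc μ C) hiC v a]

/-- Expectation of a degenerate kernel on a transversal when replica `0` is pinned. -/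
lemma pinned_mean {μ : (∀ i, V i) → ℝ} (h : IsProb μ) (d : ℕ) (i : ι) (a : V i)
    (e : Finset ι) (hi : i ∉ e) (ρ : ι → Fin (d + 1)) (ψ : (∀ i, V i) → ℝ) (hψ : Loc e ψ)
    (hdeg : ∀ j ∈ e, Deg μ j ψ) :
    (∑ y, (if y (i, 0) = a then rep μ (d + 1) y * ψ (fun j => y (j, ρ j)) else 0))
      = m1 μ i a * ∑ v, pw μ v * (ψ v * ∏ r, (if r = 0 then hp μ i a (e.filter fun j => ρ j = r) v
        else hf μ (e.filter fun j => ρ j = r) v)) := by
  classical
  set ν : Fin (d + 1) → (∀ i, V i) → ℝ := fun r => if r = 0 then pin μ i a else μ with hν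
  have h1 : ∀ y : (∀ p : ι × Fin (d + 1), V p.1),
      (if y (i, 0) = a then rep μ (d + 1) y * ψ (fun j => y (j, ρ j)) else 0)
      = repF ν y * ψ (fun j => y (j, ρ j)) := by
    intro y
    unfold repF rep
    rw [Fin.prod_univ_succ, Fin.prod_univ_succ]
    have h2 : ∀ r : Fin d, ν r.succ = μ := fun r => if_neg (Fin.succ_ne_zero r)
    have h3 : ν 0 = pin μ i a := if_pos rfl
    simp_rw [h2, h3]
    unfold pin
    split_ifs <;> ring
  simp_rw [h1]
  rw [repF_point ν (m1 μ) (m1_sum h) e ρ ψ hψ]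
  -- rewrite marginals through densities
  have hA : ∀ r, i ∉ e.filter fun j => ρ j = r := fun r hc => hi (mem_filter.mp hc).1
  have h4 : ∀ v : (∀ i, V i), ∀ r, marg (ν r) (e.filter fun j => ρ j = r) v
      = (if r = 0 then m1 μ i a else 1) * ((∏ j ∈ e.filter (fun j => ρ j = r), m1 μ j (v j)) *
        ∑ C ∈ (e.filter fun j => ρ j = r).powerset,
          (if r = 0 then hp μ i a C v else hf μ C v)) := by
    intro v r
    by_cases hr : r = 0
    · simp only [hν, hr, if_true]
      rw [marg_pin μ a (by have := hA r; rwa [hr] at this), sum_hp μ a (by have := hA r; rwa [hr] at this),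
        marg_eq_prod_gd h, prod_insert (by have := hA r; rwa [hr] at this)]
      have h5 : ∏ j ∈ e.filter (fun j => ρ j = 0), m1 μ j (Function.update v i a j)
          = ∏ j ∈ e.filter (fun j => ρ j = 0), m1 μ j (v j) := by
        refine prod_congr rfl fun j hj => ?_
        have : j ≠ i := fun hc => hi (hc ▸ (mem_filter.mp hj).1)
        simp [this]
      rw [h5]
      simp only [Function.update_self]
      ring
    · simp only [hν, hr, if_false]
      rw [marg_eq_prod_gd h, sum_hf, one_mul]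
  simp_rw [h4]
  have h6 : ∀ v : (∀ i, V i), (∏ j ∈ eᶜ, m1 μ j (v j)) * ψ v *
      ∏ r, ((if r = 0 then m1 μ i a else 1) * ((∏ j ∈ e.filter (fun j => ρ j = r), m1 μ j (v j)) *
        ∑ C ∈ (e.filter fun j => ρ j = r).powerset, (if r = 0 then hp μ i a C v else hf μ C v)))
      = m1 μ i a * (pw μ v * (ψ v * ∏ r, ∑ C ∈ (e.filter fun j => ρ j = r).powerset,
          (if r = 0 then hp μ i a C v else hf μ C v))) := by
    intro v
    rw [prod_mul_distrib, prod_mul_distrib, prod_ite_eq' univ (0 : Fin (d + 1)) (fun _ => m1 μ i a),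
      if_pos (mem_univ _),
      prod_fiberwise_of_maps_to (s := e) (t := univ) (g := ρ) (fun j _ => mem_univ _)
        (f := fun j => m1 μ j (v j))]
    unfold pw
    rw [← prod_mul_prod_compl e (fun j => m1 μ j (v j))]
    ring
  simp_rw [h6]
  rw [← mul_sum]
  congr 1
  exact deg_top h e ρ ψ hdeg (fun r C v => if r = 0 then hp μ i a C v else hf μ C v) (by
    intro r C hC x y hxy
    by_cases hr : r = 0
    · simp only [hr, if_true]
      unfold hp
      rw [hf_loc μ C x y hxy, hf_loc μ (insert i C) (Function.update x i a)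
        (Function.update y i a)]
      intro j hj
      by_cases hji : j = i
      · subst hji; simp
      · rcases mem_insert.mp hj with hj' | hj'
        · exact absurd hj' hji
        · simp [hji, hxy j hj']
    · simp only [hr, if_false]
      exact hf_loc μ C x y hxy)

/-- (R4) The exact testing identity: with replica `0` pinned at `x_i = a`, the rotated family of
degenerate kernels has mean `∑ ⟨ψ_e, κ_{i ∪ e}(a, ·)⟩`. -/
theorem rotT_test {μ : (∀ i, V i) → ℝ} (h : IsProb μ) (d : ℕ) (hd : 0 < d) (i : ι) (a : V i)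
    (k : Finset ι → (∀ i, V i) → ℝ) (hk : Row μ i k)
    (ψ : Finset ι → (∀ i, V i) → ℝ) (hψ : ∀ e, Loc e (ψ e))
    (hdeg : ∀ e, ∀ j ∈ e, Deg μ j (ψ e)) (hi : ∀ e, i ∈ e → ψ e = 0) :
    (∑ y, (if y (i, 0) = a then rep μ (d + 1) y * ∑ D, rotT d ψ D y else 0))
      = m1 μ i a * ∑ e ∈ powersetCard d univ, ∑ v, pw μ v * (ψ e v * k e (Function.update v i a)) := by
  classical
  have h1 : ∀ y : (∀ p : ι × Fin (d + 1), V p.1), ∑ D, rotT d ψ D y
      = ∑ q ∈ Idx ι d, ((wt d q.1 q.2).re * ψ q.1 (fun j => y (j, q.2 j))) := by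
    intro y
    have := sum_rotT d ψ (fun _ => 1) y
    simpa using this
  simp_rw [h1]
  have h2 : ∀ y : (∀ p : ι × Fin (d + 1), V p.1),
      (if y (i, 0) = a then rep μ (d + 1) y *
        ∑ q ∈ Idx ι d, ((wt d q.1 q.2).re * ψ q.1 (fun j => y (j, q.2 j))) else 0)
      = ∑ q ∈ Idx ι d, (wt d q.1 q.2).re *
        (if y (i, 0) = a then rep μ (d + 1) y * ψ q.1 (fun j => y (j, q.2 j)) else 0) := by
    intro y
    split_ifs with hy
    · rw [mul_sum]
      exact sum_congr rfl fun q _ => by ring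
    · simp
  simp_rw [h2]
  rw [sum_comm]
  simp_rw [← mul_sum]
  rw [sum_Idx (fun e ρ => (wt d e ρ).re * ∑ y : (∀ p : ι × Fin (d + 1), V p.1),
    (if y (i, 0) = a then rep μ (d + 1) y * ψ e (fun j => y (j, ρ j)) else 0)), mul_sum]
  refine sum_congr rfl fun e he => ?_
  have hed := (mem_powersetCard.mp he).2
  by_cases hie : i ∈ e
  · have h0 := hi e hie
    simp [h0]
  · simp_rw [pinned_mean h d i a e hie _ (ψ e) (hψ e) (hdeg e)]
    -- the algebra at a fixed point
    have h3 : ∀ v : (∀ i, V i), ∑ ρ ∈ Rho d e, wt d e ρ *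
        ∏ r, (if r = 0 then (hp μ i a (e.filter fun j => ρ j = r) v : ℂ)
          else (hf μ (e.filter fun j => ρ j = r) v : ℂ))
        = (k e (Function.update v i a) : ℂ) := by
      intro v
      have := rot_conv (d := d) e hed.le (fun C => (hf μ C v : ℂ)) (fun C => (hp μ i a C v : ℂ))
        (fun C => ((k C (Function.update v i a) + if C = ∅ then 1 else 0 : ℝ) : ℂ))
        (by simp [hf_empty h]) (by
          intro E hE
          have hiE : i ∉ E := fun hc => hie (hE hc)
          have h5 := hk E hiE (Function.update v i a)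
          unfold hp
          rw [h5]
          have h6 : ∀ C ∈ E.powerset, k C (Function.update v i a) * hf μ (E \ C)
              (Function.update v i a) = k C (Function.update v i a) * hf μ (E \ C) v := by
            intro C _
            rw [Loc.update (hf_loc μ (E \ C)) (fun hc => hiE (sdiff_subset hc)) v a]
          rw [sum_congr rfl h6]
          have h7 : ∑ C ∈ E.powerset, (if C = ∅ then (1 : ℝ) else 0) * hf μ (E \ C) v
              = hf μ E v := by
            rw [sum_eq_single_of_mem ∅ (by simp)]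
            · simp
            · intro C _ hC; simp [hC]
          rw [← h7, ← sum_add_distrib]
          push_cast
          refine sum_congr rfl fun C _ => ?_
          ring)
      rw [this]
      have : e ≠ ∅ := by
        intro hc
        rw [hc, card_empty] at hed
        omega
      simp [this]
    have h4 : ∀ ρ, (wt d e ρ).re * (m1 μ i a * ∑ v, pw μ v * (ψ e v *
        ∏ r, (if r = 0 then hp μ i a (e.filter fun j => ρ j = r) v
          else hf μ (e.filter fun j => ρ j = r) v)))
        = m1 μ i a * ∑ v, pw μ v * (ψ e v * (wt d e ρ *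
          ∏ r, (if r = 0 then (hp μ i a (e.filter fun j => ρ j = r) v : ℂ)
          else (hf μ (e.filter fun j => ρ j = r) v : ℂ))).re) := by
      intro ρ
      have h5 : ∀ v : (∀ i, V i), (∏ r, (if r = 0 then (hp μ i a (e.filter fun j => ρ j = r) v : ℂ)
          else (hf μ (e.filter fun j => ρ j = r) v : ℂ)))
          = ((∏ r, (if r = 0 then hp μ i a (e.filter fun j => ρ j = r) v
          else hf μ (e.filter fun j => ρ j = r) v) : ℝ) : ℂ) := by
        intro v
        push_cast
        refine prod_congr rfl fun r _ => ?_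
        split_ifs <;> rfl
      simp_rw [h5, Complex.re_mul_ofReal]
      rw [mul_left_comm]
      congr 1
      rw [mul_sum]
      exact sum_congr rfl fun v _ => by ring
    simp_rw [h4]
    rw [← mul_sum]
    congr 1
    rw [sum_comm]
    refine sum_congr rfl fun v _ => ?_
    rw [← mul_sum, ← mul_sum, ← Complex.re_sum, h3 v, Complex.ofReal_re]

end Vale.Agent.P042.H540
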