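import Vale.Agent.P042.H742.Defs
import Vale.Agent.P042.H540.Rot

/-! Rotated families on the replicas with an arbitrary reference (the form of `H742.Defs`):
membership in `IsFam`, norm, and the exact testing identity. -/

set_option autoImplicit false
set_option linter.unusedSectionVars false
set_option linter.unusedDecidableInType false

namespace Vale.Agent.P042.H540

open Finset Vale.Agent.P042.H461 Vale.Agent.P042.H416 Vale.Agent.P042.H742
open Vale.Agent.P042.H779 (marg m1)

variable {ι : Type*} [Fintype ι] [DecidableEq ι] {V : ι → Type*} [∀ i, Fintype (V i)]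
  [∀ i, DecidableEq (V i)]

lemma loc_of_dep {e : Finset ι} {F : (∀ i, V i) → ℝ} (h : DependsOn F (e : Set ι)) : Loc e F :=
  fun _ _ hxy => h fun j hj => hxy j (by simpa using hj)

lemma dep_of_loc {e : Finset ι} {F : (∀ i, V i) → ℝ} (h : Loc e F) : DependsOn F (e : Set ι) :=
  fun _ _ hxy => h _ _ fun j hj => hxy j (by simpa using hj)

lemma Loc.updG {A : Finset ι} {F : (∀ i, V i) → ℝ} (hF : Loc A F) {i : ι} (hi : i ∉ A)
    (x : ∀ i, V i) (a : V i) : F (Function.update x i a) = F x := by
  refine hF _ _ fun j hj => ?_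
  have : j ≠ i := fun h => hi (h ▸ hj)
  simp [this]

lemma rep_742 (mu : (∀ i, V i) → ℝ) (N : ℕ) (y : ∀ p : ι × Fin N, V p.1) :
    H742.rep mu N y = rep mu N y := rfl

lemma mix_eq {κ : Type*} [DecidableEq κ] {U : κ → Type*} (J : Finset κ) (u y : ∀ p, U p) :
    mix J u y = J.piecewise u y := by
  funext p
  unfold mix Finset.piecewise
  rfl

/-- (R1) the rotated family is a family of degree `d` off `(i, 0)` for the replica law. -/
theorem isFam_rotT (mu : (∀ i, V i) → ℝ) (d : ℕ) (i : ι)
    (psi : Finset ι → (∀ i, V i) → ℝ) (hloc : ∀ e, DependsOn (psi e) (e : Set ι))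
    (hi : ∀ e, i ∈ e → psi e = 0) :
    IsFam (V := fun p : ι × Fin (d + 1) => V p.1) (H742.rep mu (d + 1)) {(i, 0)} d
      (rotT d psi) where
  deg D hD := by
    funext y
    exact rotT_card d psi D hD y
  off D hD := by
    funext y
    have hmem : (i, (0 : Fin (d + 1))) ∈ D := by
      by_contra hc
      exact hD (disjoint_singleton_right.mpr hc)
    unfold rotT
    refine sum_eq_zero fun q _ => ?_
    by_cases h : D = gr q.1 q.2
    · rw [if_pos h, hi q.1 (mem_gr.mp (h ▸ hmem)).1]
      simp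
    · rw [if_neg h]
  dep D := dep_of_loc (rotT_loc d psi (fun e => loc_of_dep (hloc e)) D)
  zz J hJ z := by
    have := rotT_Z mu d psi (fun e => loc_of_dep (hloc e)) J hJ z
    simp_rw [mix_eq] at this
    exact this

/-- Marginal of the product weight. -/
lemma marg_W (lam : ∀ i, V i → ℝ) (hlam : ∀ i, ∑ a, lam i a = 1) (A : Finset ι)
    (v : ∀ i, V i) : marg (W lam) A v = lw lam A v := by
  unfold lw
  have h1 := resolve lam hlam A (fun x => ∏ j ∈ A, lam j (x j))
    (fun x y hxy => prod_congr rfl fun j hj => by rw [hxy j hj]) v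
  rw [h1]
  unfold marg
  refine sum_congr rfl fun y _ => ?_
  by_cases hy : ∀ i ∈ A, y i = v i
  · rw [if_pos hy]
    rw [prod_congr rfl (g := fun _ => (1 : ℝ)) (fun j hj => if_pos (hy j hj).symm)]
    unfold W
    rw [prod_const_one, mul_one, mul_comm, prod_mul_prod_compl]
  · rw [if_neg hy]
    push Not at hy
    obtain ⟨j, hj, hne⟩ := hy
    have h0 : ∏ j ∈ A, (if v j = y j then (1 : ℝ) else 0) = 0 :=
      prod_eq_zero hj (if_neg (Ne.symm hne))
    rw [h0, mul_zero]

lemma W_rlam (lam : ∀ i, V i → ℝ) (N : ℕ) (y : ∀ p : ι × Fin N, V p.1) :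
    W (rlam lam N) y = repF (fun _ : Fin N => W lam) y := by
  unfold W rlam repF
  rw [← Finset.univ_product_univ, Finset.prod_product_right]

/-- Under the reference of the replicas the transversal point has the reference law. -/
lemma W_rep_point (lam : ∀ i, V i → ℝ) (hlam : ∀ i, ∑ a, lam i a = 1) (d : ℕ) (e : Finset ι)
    (ρ : ι → Fin (d + 1)) (F : (∀ i, V i) → ℝ) (hF : Loc e F) :
    ∑ y, W (rlam lam (d + 1)) y * F (fun j => y (j, ρ j)) = ∑ v, W lam v * F v := by
  simp_rw [W_rlam]
  rw [repF_point (fun _ : Fin (d + 1) => W lam) lam hlam e ρ F hF]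
  refine sum_congr rfl fun v _ => ?_
  simp_rw [marg_W lam hlam]
  unfold lw
  rw [prod_fiberwise_of_maps_to (s := e) (t := univ) (g := ρ) (fun j _ => mem_univ _)
    (f := fun j => lam j (v j))]
  unfold W
  rw [← prod_mul_prod_compl e (fun j => lam j (v j))]
  ring

lemma wt_re_sq_le (d : ℕ) (e : Finset ι) (ρ : ι → Fin (d + 1)) : (wt d e ρ).re ^ 2 ≤ 1 := by
  have h1 : ‖wt d e ρ‖ = 1 := by
    unfold wt
    rw [norm_prod]
    exact prod_eq_one fun j _ => norm_om d _
  have h2 := Complex.abs_re_le_norm (wt d e ρ)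
  rw [h1] at h2
  exact (sq_le_one_iff_abs_le_one _).mpr h2

/-- The square of the family: the supports of the terms are different. -/
lemma rotT_sq' (d : ℕ) (ψ : Finset ι → (∀ i, V i) → ℝ) (D : Finset (ι × Fin (d + 1)))
    (y : ∀ p : ι × Fin (d + 1), V p.1) :
    rotT d ψ D y ^ 2 = ∑ q ∈ Idx ι d, if D = gr q.1 q.2 then
      ((wt d q.1 q.2).re * ψ q.1 (fun j => y (j, q.2 j))) ^ 2 else 0 := by
  classical
  by_cases h : ∃ q ∈ Idx ι d, D = gr q.1 q.2
  · obtain ⟨q, hq, hD⟩ := h
    have huniq : ∀ q' ∈ Idx ι d, q' ≠ q → D ≠ gr q'.1 q'.2 := by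
      intro q' hq' hne hc
      apply hne
      have := gr_inj (mem_Idx.mp hq').2 (mem_Idx.mp hq).2 (hc.symm.trans hD)
      exact Prod.ext this.1 this.2
    unfold rotT
    rw [sum_eq_single_of_mem q hq (fun q' hq' hne => if_neg (huniq q' hq' hne)),
      sum_eq_single_of_mem q hq (fun q' hq' hne => if_neg (huniq q' hq' hne)),
      if_pos hD, if_pos hD]
  · push Not at h
    unfold rotT
    rw [sum_eq_zero (fun q hq => if_neg (h q hq)), sum_eq_zero (fun q hq => if_neg (h q hq))]
    norm_num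

/-- (R3) the norm of the rotated family. -/
theorem nrm_rotT (lam : ∀ i, V i → ℝ) (h0 : ∀ i a, 0 ≤ lam i a) (hlam : ∀ i, ∑ a, lam i a = 1)
    (t : ι → ℝ) (ht : ∀ i, 0 ≤ t i) (d : ℕ)
    (psi : Finset ι → (∀ i, V i) → ℝ) (hloc : ∀ e, DependsOn (psi e) (e : Set ι)) :
    nrm (rlam lam (d + 1)) (rt t (d + 1)) (rotT d psi) ≤ (d + 1 : ℝ) ^ d * nrm lam t psi := by
  unfold nrm
  have hψ : ∀ e, Loc e (psi e) := fun e => loc_of_dep (hloc e)
  have h1 : ∀ D : Finset (ι × Fin (d + 1)),
      (∏ p ∈ D, rt t (d + 1) p)⁻¹ * ∑ y, W (rlam lam (d + 1)) y * rotT d psi D y ^ 2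
      = ∑ q ∈ Idx ι d, if D = gr q.1 q.2 then (∏ i ∈ q.1, t i)⁻¹ * ((wt d q.1 q.2).re ^ 2 *
        ∑ v, W lam v * psi q.1 v ^ 2) else 0 := by
    intro D
    simp_rw [rotT_sq', mul_sum]
    rw [sum_comm]
    refine sum_congr rfl fun q _ => ?_
    by_cases hD : D = gr q.1 q.2
    · simp only [hD, if_true]
      have hprod : ∏ p ∈ gr q.1 q.2, rt t (d + 1) p = ∏ i ∈ q.1, t i := by
        unfold gr rt
        rw [prod_image]
        intro a _ b _ hab
        exact (Prod.mk.injEq _ _ _ _ ▸ hab).1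
      rw [hprod]
      have h2 := W_rep_point lam hlam d q.1 q.2 (fun v => psi q.1 v ^ 2)
        (fun x y hxy => by simp only [hψ q.1 x y hxy])
      have h3 : ∑ i, (∏ i ∈ q.1, t i)⁻¹ * ((wt d q.1 q.2).re ^ 2 * (W lam i * psi q.1 i ^ 2))
          = (∏ i ∈ q.1, t i)⁻¹ * ((wt d q.1 q.2).re ^ 2 * ∑ v, W lam v * psi q.1 v ^ 2) := by
        rw [mul_sum, mul_sum]
      rw [h3, ← h2, mul_sum, mul_sum]
      refine sum_congr rfl fun y _ => ?_
      ring
    · simp only [hD, if_false, mul_zero]
      exact sum_const_zero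
  simp_rw [h1]
  rw [sum_comm]
  have h2 : ∀ q ∈ Idx ι d, ∑ D, (if D = gr q.1 q.2 then (∏ i ∈ q.1, t i)⁻¹ *
      ((wt d q.1 q.2).re ^ 2 * ∑ v, W lam v * psi q.1 v ^ 2) else 0)
      ≤ (∏ i ∈ q.1, t i)⁻¹ * ∑ v, W lam v * psi q.1 v ^ 2 := by
    intro q _
    rw [sum_ite_eq' univ, if_pos (mem_univ _)]
    refine mul_le_mul_of_nonneg_left ?_ (inv_nonneg.mpr (prod_nonneg fun i _ => ht i))
    have h3 : 0 ≤ ∑ v, W lam v * psi q.1 v ^ 2 :=
      sum_nonneg fun v _ => mul_nonneg (W_nonneg h0 v) (sq_nonneg _)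
    nlinarith [wt_re_sq_le d q.1 q.2]
  refine (sum_le_sum h2).trans ?_
  rw [sum_Idx (fun e _ => (∏ i ∈ e, t i)⁻¹ * ∑ v, W lam v * psi e v ^ 2)]
  have h4 : ∀ e ∈ powersetCard d (univ : Finset ι), ∑ _ρ ∈ Rho d e,
      (∏ i ∈ e, t i)⁻¹ * ∑ v, W lam v * psi e v ^ 2
      = (d + 1 : ℝ) ^ d * ((∏ i ∈ e, t i)⁻¹ * ∑ v, W lam v * psi e v ^ 2) := by
    intro e he
    rw [sum_const, card_Rho, (mem_powersetCard.mp he).2, nsmul_eq_mul]
    push_cast
    rfl
  rw [sum_congr rfl h4, ← mul_sum]
  refine mul_le_mul_of_nonneg_left ?_ (by positivity)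
  refine sum_le_sum_of_subset_of_nonneg (subset_univ _) fun e _ _ => ?_
  refine mul_nonneg (inv_nonneg.mpr (prod_nonneg fun i _ => ht i)) ?_
  exact sum_nonneg fun v _ => mul_nonneg (W_nonneg h0 v) (sq_nonneg _)

/-- The law restricted to `x_i = a` (no normalisation). -/
noncomputable def pinG (mu : (∀ i, V i) → ℝ) (i : ι) (a : V i) : (∀ i, V i) → ℝ :=
  fun x => if x i = a then mu x else 0

lemma marg_pinG (μ : (∀ i, V i) → ℝ) {i : ι} (a : V i) {A : Finset ι} (hi : i ∉ A)
    (v : ∀ i, V i) : marg (pinG μ i a) A v = marg μ (insert i A) (Function.update v i a) := by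
  unfold marg pinG
  refine sum_congr rfl fun y _ => ?_
  have key : (∀ j ∈ insert i A, y j = Function.update v i a j) ↔
      (y i = a ∧ ∀ j ∈ A, y j = v j) := by
    constructor
    · intro h
      refine ⟨by simpa using h i (mem_insert_self i A), fun j hj => ?_⟩
      have hji : j ≠ i := fun h => hi (h ▸ hj)
      have := h j (mem_insert_of_mem hj)
      simpa [hji] using this
    · rintro ⟨h1, h2⟩ j hj
      rcases mem_insert.mp hj with rfl | hj
      · simpa using h1
      · have hji : j ≠ i := fun h => hi (h ▸ hj)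
        simpa [hji] using h2 j hj
  by_cases h1 : ∀ j ∈ A, y j = v j <;> by_cases h2 : y i = a
  · rw [if_pos h1, if_pos h2, if_pos (key.mpr ⟨h2, h1⟩)]
  · rw [if_pos h1, if_neg h2, if_neg (fun hc => h2 (key.mp hc).1)]
  · rw [if_neg h1, if_neg (fun hc => h1 (key.mp hc).2)]
  · rw [if_neg h1, if_neg (fun hc => h1 (key.mp hc).2)]

lemma marg_eq_lw_gr (lam : ∀ i, V i → ℝ) (mu : (∀ i, V i) → ℝ)
    (hac : ∀ A x, lw lam A x = 0 → marg mu A x = 0) (A : Finset ι) (v : ∀ i, V i) :
    marg mu A v = lw lam A v * H742.gr lam mu A v := by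
  unfold H742.gr
  by_cases h0 : lw lam A v = 0
  · rw [h0, hac A v h0]; simp
  · rw [mul_div_cancel₀ _ h0]

lemma gr_loc (lam : ∀ i, V i → ℝ) (mu : (∀ i, V i) → ℝ) (A : Finset ι) :
    Loc A (H742.gr lam mu A) := by
  intro x y hxy
  unfold H742.gr lw
  rw [Vale.Agent.P042.H779.marg_congr A hxy]
  congr 1
  exact prod_congr rfl fun j hj => by rw [hxy j hj]

lemma pinned_mean' (lam : ∀ i, V i → ℝ) (hlam : ∀ i, ∑ a, lam i a = 1)
    (mu : (∀ i, V i) → ℝ) (hac : ∀ A x, lw lam A x = 0 → marg mu A x = 0)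
    (d : ℕ) (i : ι) (a : V i) (e : Finset ι) (hi : i ∉ e) (ρ : ι → Fin (d + 1))
    (psi : (∀ i, V i) → ℝ) (hpsi : Loc e psi) :
    (∑ y, (if y (i, 0) = a then rep mu (d + 1) y * psi (fun j => y (j, ρ j)) else 0))
      = lam i a * ∑ v, W lam v * (psi v * ∏ r, (if r = 0 then
          H742.gr lam mu (insert i (e.filter fun j => ρ j = r)) (Function.update v i a)
        else H742.gr lam mu (e.filter fun j => ρ j = r) v)) := by
  classical
  set ν : Fin (d + 1) → (∀ i, V i) → ℝ := fun r => if r = 0 then pinG mu i a else mu with hν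
  have h1 : ∀ y : (∀ p : ι × Fin (d + 1), V p.1),
      (if y (i, 0) = a then rep mu (d + 1) y * psi (fun j => y (j, ρ j)) else 0)
      = repF ν y * psi (fun j => y (j, ρ j)) := by
    intro y
    unfold repF rep
    rw [Fin.prod_univ_succ, Fin.prod_univ_succ]
    have h2 : ∀ r : Fin d, ν r.succ = mu := fun r => if_neg (Fin.succ_ne_zero r)
    have h3 : ν 0 = pinG mu i a := if_pos rfl
    simp_rw [h2, h3]
    unfold pinG
    split_ifs <;> ring
  simp_rw [h1]
  rw [repF_point ν lam hlam e ρ psi hpsi]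
  have hA : ∀ r, i ∉ e.filter fun j => ρ j = r := fun r hc => hi (mem_filter.mp hc).1
  have h4 : ∀ v : (∀ i, V i), ∀ r, marg (ν r) (e.filter fun j => ρ j = r) v
      = (if r = 0 then lam i a else 1) * ((∏ j ∈ e.filter (fun j => ρ j = r), lam j (v j)) *
        (if r = 0 then H742.gr lam mu (insert i (e.filter fun j => ρ j = r))
            (Function.update v i a)
          else H742.gr lam mu (e.filter fun j => ρ j = r) v)) := by
    intro v r
    by_cases hr : r = 0
    · subst hr
      have hA0 := hA 0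
      simp only [hν, if_true]
      rw [marg_pinG mu a hA0, marg_eq_lw_gr lam mu hac]
      unfold lw
      rw [prod_insert hA0]
      have h5 : ∏ j ∈ e.filter (fun j => ρ j = 0), lam j (Function.update v i a j)
          = ∏ j ∈ e.filter (fun j => ρ j = 0), lam j (v j) := by
        refine prod_congr rfl fun j hj => ?_
        have : j ≠ i := fun hc => hi (hc ▸ (mem_filter.mp hj).1)
        simp [this]
      rw [h5]
      simp only [Function.update_self]
      ring
    · simp only [hν, hr, if_false]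
      rw [marg_eq_lw_gr lam mu hac, one_mul]
      rfl
  simp_rw [h4]
  rw [mul_sum]
  refine sum_congr rfl fun v _ => ?_
  rw [prod_mul_distrib, prod_mul_distrib, prod_ite_eq' univ (0 : Fin (d + 1)) (fun _ => lam i a),
    if_pos (mem_univ _),
    prod_fiberwise_of_maps_to (s := e) (t := univ) (g := ρ) (fun j _ => mem_univ _)
      (f := fun j => lam j (v j))]
  unfold W
  rw [← prod_mul_prod_compl e (fun j => lam j (v j))]
  ring

/-- The rotated product at a fixed point. -/
lemma rot_point (lam : ∀ i, V i → ℝ) (mu : (∀ i, V i) → ℝ) (hmu : ∑ x, mu x = 1)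
    (d : ℕ) (i : ι) (k : Finset ι → (∀ i, V i) → ℝ) (hk : IsCumI lam mu i k)
    (e : Finset ι) (hie : i ∉ e) (hed : e.card ≤ d) (v : ∀ i, V i) (a : V i)
    (hW : W lam (Function.update v i a) ≠ 0) :
    ∑ ρ ∈ Rho d e, wt d e ρ * ∏ r, (if r = 0 then
        (H742.gr lam mu (insert i (e.filter fun j => ρ j = r)) (Function.update v i a) : ℂ)
      else (H742.gr lam mu (e.filter fun j => ρ j = r) v : ℂ))
      = (k e (Function.update v i a) : ℂ) := by
  refine rot_conv (d := d) e hed (fun C => (H742.gr lam mu C v : ℂ))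
    (fun C => (H742.gr lam mu (insert i C) (Function.update v i a) : ℂ))
    (fun C => (k C (Function.update v i a) : ℂ)) ?_ ?_
  · simp [H742.gr, lw, marg, hmu]
  · intro E hE
    have hiE : i ∉ E := fun hc => hie (hE hc)
    rw [hk E hiE _ hW]
    push_cast
    refine sum_congr rfl fun C _ => ?_
    rw [Loc.updG (gr_loc lam mu (E \ C)) (fun hc => hiE (sdiff_subset hc)) v a]

/-- (R4) The exact testing identity, for arbitrary local kernels `psi e`, `|e| = d`, `i ∉ e`. -/
theorem test_rotT (lam : ∀ i, V i → ℝ) (hlam : ∀ i, ∑ a, lam i a = 1)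
    (mu : (∀ i, V i) → ℝ) (hmu : ∑ x, mu x = 1)
    (hac : ∀ A x, lw lam A x = 0 → marg mu A x = 0)
    (d : ℕ) (i : ι) (k : Finset ι → (∀ i, V i) → ℝ) (hk : IsCumI lam mu i k)
    (psi : Finset ι → (∀ i, V i) → ℝ) (hloc : ∀ e, DependsOn (psi e) (e : Set ι))
    (hi : ∀ e, i ∈ e → psi e = 0) (hcard : ∀ e, e.card ≠ d → psi e = 0)
    (w : ∀ p : ι × Fin (d + 1), V p.1) :
    pint (H742.rep mu (d + 1)) {(i, 0)} w (fun y => ∑ D, rotT d psi D y)
      = lam i (w (i, 0)) * ∑ e, ∑ x, W lam x *
        (psi e x * k e (Function.update x i (w (i, 0)))) := by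
  classical
  have hψ : ∀ e, Loc e (psi e) := fun e => loc_of_dep (hloc e)
  set a := w (i, 0) with ha
  have h0 : pint (H742.rep mu (d + 1)) {(i, 0)} w (fun y => ∑ D, rotT d psi D y)
      = ∑ y, (if y (i, 0) = a then rep mu (d + 1) y * ∑ D, rotT d psi D y else 0) := by
    unfold pint
    refine sum_congr rfl fun y _ => ?_
    have : (∀ p ∈ ({(i, 0)} : Finset (ι × Fin (d + 1))), y p = w p) ↔ y (i, 0) = a := by
      constructor
      · intro h; exact h (i, 0) (mem_singleton_self _)
      · intro h p hp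
        rw [mem_singleton] at hp
        subst hp
        exact h
    by_cases hy : y (i, 0) = a
    · rw [if_pos (this.mpr hy), if_pos hy]; rfl
    · rw [if_neg (fun hc => hy (this.mp hc)), if_neg hy]
  rw [h0]
  have h1 : ∀ y : (∀ p : ι × Fin (d + 1), V p.1), ∑ D, rotT d psi D y
      = ∑ q ∈ Idx ι d, ((wt d q.1 q.2).re * psi q.1 (fun j => y (j, q.2 j))) := by
    intro y
    have := sum_rotT d psi (fun _ => 1) y
    simpa using this
  simp_rw [h1]
  have h2 : ∀ y : (∀ p : ι × Fin (d + 1), V p.1),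
      (if y (i, 0) = a then rep mu (d + 1) y *
        ∑ q ∈ Idx ι d, ((wt d q.1 q.2).re * psi q.1 (fun j => y (j, q.2 j))) else 0)
      = ∑ q ∈ Idx ι d, (wt d q.1 q.2).re *
        (if y (i, 0) = a then rep mu (d + 1) y * psi q.1 (fun j => y (j, q.2 j)) else 0) := by
    intro y
    split_ifs with hy
    · rw [mul_sum]
      exact sum_congr rfl fun q _ => by ring
    · simp
  simp_rw [h2]
  rw [sum_comm]
  simp_rw [← mul_sum]
  rw [sum_Idx (fun e ρ => (wt d e ρ).re * ∑ y : (∀ p : ι × Fin (d + 1), V p.1),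
    (if y (i, 0) = a then rep mu (d + 1) y * psi e (fun j => y (j, ρ j)) else 0)), mul_sum]
  -- the sum over all `e` is the sum over `|e| = d`
  have h3 : ∑ e, lam i a * ∑ x, W lam x * (psi e x * k e (Function.update x i a))
      = ∑ e ∈ powersetCard d (univ : Finset ι),
        lam i a * ∑ x, W lam x * (psi e x * k e (Function.update x i a)) := by
    symm
    refine sum_subset (subset_univ _) fun e _ he => ?_
    have : e.card ≠ d := fun hc => he (mem_powersetCard.mpr ⟨subset_univ _, hc⟩)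
    rw [hcard e this]
    simp
  rw [h3]
  refine sum_congr rfl fun e he => ?_
  have hed := (mem_powersetCard.mp he).2
  by_cases hie : i ∈ e
  · rw [hi e hie]
    simp
  · simp_rw [pinned_mean' lam hlam mu hac d i a e hie _ (psi e) (hψ e)]
    have h4 : ∀ ρ, (wt d e ρ).re * (lam i a * ∑ v, W lam v * (psi e v *
        ∏ r, (if r = 0 then
          H742.gr lam mu (insert i (e.filter fun j => ρ j = r)) (Function.update v i a)
          else H742.gr lam mu (e.filter fun j => ρ j = r) v)))
        = lam i a * ∑ v, W lam v * (psi e v * (wt d e ρ *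
          ∏ r, (if r = 0 then
            (H742.gr lam mu (insert i (e.filter fun j => ρ j = r)) (Function.update v i a) : ℂ)
          else (H742.gr lam mu (e.filter fun j => ρ j = r) v : ℂ))).re) := by
      intro ρ
      have h5 : ∀ v : (∀ i, V i), (∏ r, (if r = 0 then
            (H742.gr lam mu (insert i (e.filter fun j => ρ j = r)) (Function.update v i a) : ℂ)
          else (H742.gr lam mu (e.filter fun j => ρ j = r) v : ℂ)))
          = ((∏ r, (if r = 0 then
            H742.gr lam mu (insert i (e.filter fun j => ρ j = r)) (Function.update v i a)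
          else H742.gr lam mu (e.filter fun j => ρ j = r) v) : ℝ) : ℂ) := by
        intro v
        push_cast
        refine prod_congr rfl fun r _ => ?_
        split_ifs <;> rfl
      simp_rw [h5, Complex.re_mul_ofReal]
      rw [mul_left_comm]
      congr 1
      rw [mul_sum]
      exact sum_congr rfl fun v _ => by ring
    simp_rw [h4]
    rw [← mul_sum]
    by_cases hla : lam i a = 0
    · rw [hla, zero_mul, zero_mul]
    congr 1
    rw [sum_comm]
    refine sum_congr rfl fun v _ => ?_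
    rw [← mul_sum, ← mul_sum, ← Complex.re_sum]
    by_cases hW : W lam (Function.update v i a) = 0
    · have hWv : W lam v = 0 := by
        unfold W at hW ⊢
        obtain ⟨j, _, hj⟩ := prod_eq_zero_iff.mp hW
        by_cases hji : j = i
        · subst hji
          simp only [Function.update_self] at hj
          exact absurd hj hla
        · refine prod_eq_zero (mem_univ j) ?_
          simpa [hji] using hj
      rw [hWv, zero_mul, zero_mul]
    · rw [rot_point lam mu hmu d i k hk e hie hed.le v a hW, Complex.ofReal_re]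

end Vale.Agent.P042.H540
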